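import Vale.Agent.P209.H710.Nec.Defs
import Mathlib.Analysis.Calculus.ContDiff.Basic
import Mathlib.Analysis.SpecialFunctions.Complex.CircleAddChar
import Mathlib.Tactic

set_option linter.all false

/-! Row G4 of the necessity: the data `BallHam` of a ball. -/

namespace Vale.Agent.P209.H578.NecG4

open scoped ContDiff
open Vale.Agent.P209 Vale.Agent.P209.H710.Nec

universe u

variable {V : Type u} [NormedAddCommGroup V] [InnerProductSpace ℂ V] {n : ℕ}

section algebra

variable {e : V ≃ₗ[ℂ] ℂ × (Fin n → ℂ)}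

theorem nsq_nonneg (y : Fin n → ℂ) : 0 ≤ nsq y := Finset.sum_nonneg fun _ _ => by positivity

theorem norm_sq_eq (he : IsUni e) (z : V) : ‖z‖ ^ 2 = ‖(e z).1‖ ^ 2 + nsq (e z).2 := by
  have h1 := he z z
  rw [inner_self_eq_norm_sq_to_K] at h1
  have h2 := congrArg Complex.re h1
  have h3 : ∀ a : ℂ, (starRingEnd ℂ) a * a = ((‖a‖ ^ 2 : ℝ) : ℂ) := by
    intro a
    rw [mul_comm, Complex.mul_conj, Complex.normSq_eq_norm_sq]
  simp only [h3] at h2
  rw [← Complex.ofReal_sum, ← Complex.ofReal_add, Complex.ofReal_re] at h2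
  have h4 : ((‖z‖ : ℂ) ^ 2).re = ‖z‖ ^ 2 := by
    rw [← Complex.ofReal_pow, Complex.ofReal_re]
  unfold nsq
  rw [← h2]
  exact h4.symm

theorem nsq_lt {y : Fin n → ℂ} (hy : y ∈ openBall n 1) : nsq y < 1 / Real.pi := by
  have h1 : Real.pi * nsq y < 1 := hy
  rw [lt_div_iff₀ Real.pi_pos, mul_comm]
  exact h1

theorem rad_pos {y : Fin n → ℂ} (hy : y ∈ openBall n 1) : 0 < rad y :=
  Real.sqrt_pos.2 (by linarith [nsq_lt hy])

theorem rad_sq {y : Fin n → ℂ} (hy : y ∈ openBall n 1) : rad y ^ 2 = 1 / Real.pi - nsq y :=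
  Real.sq_sqrt (by linarith [nsq_lt hy])

theorem e_sig (y : Fin n → ℂ) : e (sig e y) = ((rad y : ℂ), y) := by
  unfold sig
  rw [LinearEquiv.apply_symm_apply]

theorem norm_sig (he : IsUni e) {y : Fin n → ℂ} (hy : y ∈ openBall n 1) :
    ‖sig e y‖ = 1 / Real.sqrt Real.pi := by
  have h1 := norm_sq_eq he (sig e y)
  rw [e_sig] at h1
  simp only [Complex.norm_real, Real.norm_eq_abs, sq_abs] at h1
  rw [rad_sq hy] at h1
  have h2 : ‖sig e y‖ ^ 2 = (1 / Real.sqrt Real.pi) ^ 2 := by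
    rw [h1, div_pow, Real.sq_sqrt Real.pi_pos.le]
    ring
  exact (sq_eq_sq₀ (norm_nonneg _) (by positivity)).1 h2

theorem chart_smul {a : ℂ} (ha : a ≠ 0) (z : V) : chart e (a • z) = chart e z := by
  funext j
  unfold chart
  rw [map_smul, Prod.smul_fst, Prod.smul_snd, Pi.smul_apply, smul_eq_mul, smul_eq_mul, map_mul,
    norm_mul, norm_smul]
  have h1 : (a : ℂ) * (starRingEnd ℂ) a = ((‖a‖ * ‖a‖ : ℝ) : ℂ) := by
    rw [Complex.mul_conj, Complex.normSq_eq_norm_sq, sq]
  have h2 : ((‖a‖ * ‖a‖ : ℝ) : ℂ) ≠ 0 := by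
    rw [Complex.ofReal_ne_zero]
    exact (mul_pos (norm_pos_iff.2 ha) (norm_pos_iff.2 ha)).ne'
  have h3 : a * (e z).2 j * ((starRingEnd ℂ) a * (starRingEnd ℂ) (e z).1) =
      ((‖a‖ * ‖a‖ : ℝ) : ℂ) * ((e z).2 j * (starRingEnd ℂ) (e z).1) := by
    rw [← h1]
    ring
  have h4 : ((‖a‖ * ‖(e z).1‖ * (Real.sqrt Real.pi * (‖a‖ * ‖z‖)) : ℝ) : ℂ) =
      ((‖a‖ * ‖a‖ : ℝ) : ℂ) * ((‖(e z).1‖ * (Real.sqrt Real.pi * ‖z‖) : ℝ) : ℂ) := by
    rw [← Complex.ofReal_mul]
    congr 1
    ring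
  rw [h3, h4, mul_div_mul_left _ _ h2]

theorem chart_sig (he : IsUni e) {y : Fin n → ℂ} (hy : y ∈ openBall n 1) :
    chart e (sig e y) = y := by
  funext j
  unfold chart
  rw [e_sig, norm_sig he hy]
  have h1 := rad_pos hy
  have h2 : Real.sqrt Real.pi * (1 / Real.sqrt Real.pi) = 1 := by
    have : 0 < Real.sqrt Real.pi := Real.sqrt_pos.2 Real.pi_pos
    field_simp
  rw [h2, mul_one, Complex.norm_real, Real.norm_of_nonneg h1.le, Complex.conj_ofReal]
  have h3 : ((rad y : ℝ) : ℂ) ≠ 0 := Complex.ofReal_ne_zero.2 h1.ne'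
  field_simp

theorem sig_fst_ne (e : V ≃ₗ[ℂ] ℂ × (Fin n → ℂ)) {y : Fin n → ℂ} (hy : y ∈ openBall n 1) :
    (e (sig e y)).1 ≠ 0 := by
  rw [e_sig]
  exact Complex.ofReal_ne_zero.2 (rad_pos hy).ne'

/-- decomposition of a point of the cone -/
theorem decomp (he : IsUni e) {z : V} (hz : (e z).1 ≠ 0) :
    chart e z ∈ openBall n 1 ∧ ∃ a : ℂ, a ≠ 0 ∧ z = a • sig e (chart e z) := by
  have hz0 : z ≠ 0 := by
    rintro rfl
    exact hz (by simp)
  have hzn : 0 < ‖z‖ := norm_pos_iff.2 hz0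
  have h1n : 0 < ‖(e z).1‖ := norm_pos_iff.2 hz
  have hpi := Real.pi_pos
  have hs : 0 < Real.sqrt Real.pi := Real.sqrt_pos.2 hpi
  have hsq : Real.sqrt Real.pi ^ 2 = Real.pi := Real.sq_sqrt hpi.le
  have hnsq : nsq (chart e z) = nsq (e z).2 / (Real.pi * ‖z‖ ^ 2) := by
    unfold nsq
    rw [Finset.sum_div]
    refine Finset.sum_congr rfl fun j _ => ?_
    unfold chart
    rw [norm_div, norm_mul, RCLike.norm_conj, Complex.norm_real,
      Real.norm_of_nonneg (by positivity), div_pow, mul_pow, mul_pow, mul_pow, hsq]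
    field_simp
  have h2 := norm_sq_eq he z
  have hrad : 1 / Real.pi - nsq (chart e z) = (‖(e z).1‖ / (Real.sqrt Real.pi * ‖z‖)) ^ 2 := by
    rw [hnsq, div_pow, mul_pow, hsq]
    field_simp
    rw [h2]
    ring
  have hmem : chart e z ∈ openBall n 1 := by
    show Real.pi * nsq (chart e z) < 1
    have h3 : 0 < (‖(e z).1‖ / (Real.sqrt Real.pi * ‖z‖)) ^ 2 := by positivity
    rw [← hrad] at h3
    have h4 : nsq (chart e z) < 1 / Real.pi := by linarith
    rwa [lt_div_iff₀ hpi, mul_comm] at h4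
  have hr : rad (chart e z) = ‖(e z).1‖ / (Real.sqrt Real.pi * ‖z‖) := by
    unfold rad
    rw [hrad, Real.sqrt_sq (by positivity)]
  refine ⟨hmem, ((Real.sqrt Real.pi * ‖z‖ / ‖(e z).1‖ : ℝ) : ℂ) * (e z).1, ?_, ?_⟩
  · refine mul_ne_zero (Complex.ofReal_ne_zero.2 (by positivity)) hz
  · apply e.injective
    rw [map_smul, e_sig, hr]
    refine Prod.ext ?_ ?_
    · show (e z).1 = _ * ((‖(e z).1‖ / (Real.sqrt Real.pi * ‖z‖) : ℝ) : ℂ)
      rw [mul_right_comm, ← Complex.ofReal_mul]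
      have : Real.sqrt Real.pi * ‖z‖ / ‖(e z).1‖ * (‖(e z).1‖ / (Real.sqrt Real.pi * ‖z‖)) = 1 := by
        field_simp
      rw [this]
      simp
    · funext j
      show (e z).2 j = _ * chart e z j
      unfold chart
      have h5 : (e z).1 * (starRingEnd ℂ) (e z).1 = ((‖(e z).1‖ ^ 2 : ℝ) : ℂ) := by
        rw [Complex.mul_conj, Complex.normSq_eq_norm_sq]
      have h6 : ((Real.sqrt Real.pi * ‖z‖ / ‖(e z).1‖ : ℝ) : ℂ) * (e z).1 *
          ((e z).2 j * (starRingEnd ℂ) (e z).1 /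
            ((‖(e z).1‖ * (Real.sqrt Real.pi * ‖z‖) : ℝ) : ℂ)) =
          (e z).2 j * (((Real.sqrt Real.pi * ‖z‖ / ‖(e z).1‖ : ℝ) : ℂ) *
            ((e z).1 * (starRingEnd ℂ) (e z).1) /
            ((‖(e z).1‖ * (Real.sqrt Real.pi * ‖z‖) : ℝ) : ℂ)) := by ring
      rw [h6, h5, ← Complex.ofReal_mul, ← Complex.ofReal_div]
      have h7 : Real.sqrt Real.pi * ‖z‖ / ‖(e z).1‖ * ‖(e z).1‖ ^ 2 /
          (‖(e z).1‖ * (Real.sqrt Real.pi * ‖z‖)) = 1 := by
        field_simp
      rw [h7]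
      simp

end algebra


section misc

theorem ph_eq {s t : ℝ} (h : ph s = ph t) : ∃ m : ℤ, s - t = m := by
  unfold ph at h
  obtain ⟨m, hm⟩ := Complex.exp_eq_exp_iff_exists_int.1 h
  have h1 := congrArg Complex.im hm
  simp at h1
  refine ⟨-m, ?_⟩
  have hpi := Real.pi_pos
  have h2 : 2 * Real.pi * (s - t + m) = 0 := by linarith
  have h3 : s - t + m = 0 := by
    rcases mul_eq_zero.1 h2 with h4 | h4
    · exfalso
      linarith
    · exact h4
  push_cast
  linarith

theorem ph_zero : ph 0 = 1 := by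
  unfold ph
  simp

theorem ph_norm (t : ℝ) : ‖ph t‖ = 1 := by
  unfold ph
  rw [← Complex.ofReal_neg]
  exact Complex.norm_exp_ofReal_mul_I _

/-- no phase coincidence -/
theorem ph_ne {s t : ℝ} (h1 : s < t) (h2 : t < s + 1) : ph s ≠ ph t := by
  intro h
  obtain ⟨m, hm⟩ := ph_eq h
  have h3 : (-1 : ℝ) < m := by linarith
  have h4 : (m : ℝ) < 0 := by linarith
  have h5 : (-1 : ℤ) < m := by exact_mod_cast h3
  have h6 : m < 0 := by exact_mod_cast h4
  omega

/-- the field of a smooth function is continuous -/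
theorem field_continuous {H : (Fin n → ℂ) → ℝ} {Y : (Fin n → ℂ) → (Fin n → ℂ)}
    (hH : ContDiff ℝ ∞ H) (hF : IsField H Y) : Continuous Y := by
  have hc : ∀ v : Fin n → ℂ, Continuous fun y => fderiv ℝ H y v := fun v =>
    (hH.continuous_fderiv (by simp)).clm_apply continuous_const
  have h1 : ∀ y (j : Fin n), (Y y j).re = fderiv ℝ H y (Pi.single j Complex.I) := by
    intro y j
    rw [← hF y]
    unfold Vale.Agent.P209.omega
    rw [Finset.sum_eq_single j]
    · simp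
    · intro b _ hb
      simp [Pi.single_eq_of_ne hb]
    · simp
  have h2 : ∀ y (j : Fin n), (Y y j).im = -fderiv ℝ H y (Pi.single j 1) := by
    intro y j
    rw [← hF y]
    unfold Vale.Agent.P209.omega
    rw [Finset.sum_eq_single j]
    · simp
    · intro b _ hb
      simp [Pi.single_eq_of_ne hb]
    · simp
  refine continuous_pi fun j => ?_
  have h3 : (fun y => Y y j) = fun y => ((fderiv ℝ H y (Pi.single j Complex.I) : ℝ) : ℂ) +
      ((-fderiv ℝ H y (Pi.single j 1) : ℝ) : ℂ) * Complex.I := by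
    funext y
    rw [← h1, ← h2]
    exact (Complex.re_add_im _).symm
  rw [h3]
  exact (Complex.continuous_ofReal.comp (hc _)).add
    ((Complex.continuous_ofReal.comp (hc _).neg).mul continuous_const)

theorem vert_zero (e : V ≃ₗ[ℂ] ℂ × (Fin n → ℂ)) (H : (Fin n → ℂ) → ℝ) (y : Fin n → ℂ) :
    vert e H y 0 = -(2 * Real.pi * H y) := by
  unfold vert dsig
  simp only [Pi.zero_apply, mul_zero, Complex.zero_re, Finset.sum_const_zero, neg_zero, zero_div,
    Complex.ofReal_zero]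
  have h1 : (((0 : ℂ), (0 : Fin n → ℂ)) : ℂ × (Fin n → ℂ)) = 0 := rfl
  rw [h1, map_zero, smul_zero, inner_zero_left, Complex.zero_re]
  ring

/-- the rotation of `x` -/
noncomputable def rotx (x : Fin n → ℂ) (t : ℝ) : Fin n → ℂ :=
  fun j => Complex.exp ((t : ℂ) * Complex.I) * x j

theorem nsq_rotx (x : Fin n → ℂ) (t : ℝ) : nsq (rotx x t) = nsq x := by
  unfold nsq rotx
  refine Finset.sum_congr rfl fun j _ => ?_
  rw [norm_mul, Complex.norm_exp_ofReal_mul_I, one_mul]

theorem rotx_hasDerivAt (x : Fin n → ℂ) (κ t : ℝ) :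
    HasDerivAt (fun t => rotx x (κ * t)) (fun j => ((κ : ℝ) * Complex.I : ℂ) * rotx x (κ * t) j) t := by
  rw [hasDerivAt_pi]
  intro j
  unfold rotx
  have h1 : HasDerivAt (fun t : ℝ => ((κ * t : ℝ) : ℂ) * Complex.I) ((κ : ℂ) * Complex.I) t := by
    have h2 : HasDerivAt (fun t : ℝ => κ * t) κ t := by
      simpa using (hasDerivAt_id t).const_mul κ
    exact h2.ofReal_comp.mul_const Complex.I
  have h3 := (h1.cexp).mul_const (x j)
  refine h3.congr_deriv ?_
  ring

/-- the integral curve in the image of the ball -/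
theorem curve {r : ℝ} {f : (Fin n → ℂ) → (Fin n → ℂ)} {U : Set (Fin n → ℂ)} (hU : IsOpen U)
    (hBU : closedBall n r ⊆ U) (hfs : ContDiffOn ℝ ∞ f U) {h' : ℝ → ℝ}
    {Y : (Fin n → ℂ) → (Fin n → ℂ)}
    (hin : ∀ x ∈ openBall n r, Y (f x) = fderiv ℝ f x
          (fun j => ((-(2 * Real.pi * h' (Real.pi * nsq x)) : ℝ) * Complex.I : ℂ) * x j))
    {x : Fin n → ℂ} (hx : x ∈ openBall n r) (τ t : ℝ) :
    rotx x (-(2 * Real.pi * h' (Real.pi * nsq x)) * τ * t) ∈ openBall n r ∧
    HasDerivAt (fun t => f (rotx x (-(2 * Real.pi * h' (Real.pi * nsq x)) * τ * t)))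
      (τ • Y (f (rotx x (-(2 * Real.pi * h' (Real.pi * nsq x)) * τ * t)))) t := by
  set κ := -(2 * Real.pi * h' (Real.pi * nsq x)) with hκ
  have h1 : ∀ s, rotx x s ∈ openBall n r := by
    intro s
    show Real.pi * nsq (rotx x s) < r
    rw [nsq_rotx]
    exact hx
  refine ⟨h1 _, ?_⟩
  have h2 : rotx x (κ * τ * t) ∈ U := hBU (le_of_lt (h1 _) : Real.pi * nsq (rotx x _) ≤ r)
  have h3 : HasFDerivAt f (fderiv ℝ f (rotx x (κ * τ * t))) (rotx x (κ * τ * t)) :=
    ((hfs.contDiffAt (hU.mem_nhds h2)).differentiableAt (by simp)).hasFDerivAt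
  have h4 := h3.comp_hasDerivAt t (rotx_hasDerivAt x (κ * τ) t)
  refine h4.congr_deriv ?_
  rw [hin _ (h1 _), nsq_rotx, ← map_smul]
  congr 1
  funext j
  rw [Pi.smul_apply, Complex.real_smul, ← hκ]
  push_cast
  ring

end misc


section main

variable [FiniteDimensional ℂ V] {e : V ≃ₗ[ℂ] ℂ × (Fin n → ℂ)}

/-- the data of a ball, before lifting -/
structure Dat (n : ℕ) (r c' r' : ℝ) (f : (Fin n → ℂ) → (Fin n → ℂ)) (U : Set (Fin n → ℂ))
    (h h' : ℝ → ℝ) (H : (Fin n → ℂ) → ℝ) (Y : (Fin n → ℂ) → (Fin n → ℂ)) : Prop where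
  hU : IsOpen U
  hBU : closedBall n r ⊆ U
  hfs : ContDiffOn ℝ ∞ f U
  hfi : Set.InjOn f U
  hfo : ∀ z ∈ U, ∀ v w : Fin n → ℂ, Vale.Agent.P209.omega (fderiv ℝ f z v) (fderiv ℝ f z w) = Vale.Agent.P209.omega v w
  hc' : h 0 = c'
  hc0 : 0 < c'
  hcr : c' < r
  hr1 : r ≤ 1
  hr'0 : 0 < r'
  hr'r : r' < r
  hA : ∀ u, 0 ≤ u → u < r' → -1 < h' u ∧ h' u < 0 ∧ 0 < h u
  hC : ∀ u, r' ≤ u → h' u = 0 ∧ h u = 0
  hH0 : ∀ y, 0 ≤ H y
  hHc : Continuous H
  hYc : Continuous Y
  hin : ∀ x ∈ openBall n r, H (f x) = h (Real.pi * nsq x) ∧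
        Y (f x) = fderiv ℝ f x
          (fun j => ((-(2 * Real.pi * h' (Real.pi * nsq x)) : ℝ) * Complex.I : ℂ) * x j)
  hfB : ∀ x ∈ openBall n r, f x ∈ openBall n 1

variable {r c' r' : ℝ} {f : (Fin n → ℂ) → (Fin n → ℂ)} {U : Set (Fin n → ℂ)}
    {h h' : ℝ → ℝ} {H : (Fin n → ℂ) → ℝ} {Y : (Fin n → ℂ) → (Fin n → ℂ)}

theorem open_closed {r : ℝ} {x : Fin n → ℂ} (hx : x ∈ openBall n r) : x ∈ closedBall n r := by
  have h1 : Real.pi * ∑ j, ‖x j‖ ^ 2 < r := hx
  exact h1.le

theorem zero_mem {r : ℝ} (hr : 0 < r) : (0 : Fin n → ℂ) ∈ openBall n r := by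
  show Real.pi * ∑ j : Fin n, ‖(0 : Fin n → ℂ) j‖ ^ 2 < r
  simpa using hr

theorem nsq_zero : nsq (0 : Fin n → ℂ) = 0 := by
  unfold nsq
  simp

theorem mem_cone (he : IsUni e) {z : V} {S : Set (Fin n → ℂ)} (hz : z ∈ cone e (f '' S)) :
    ∃ x ∈ S, f x ∈ openBall n 1 ∧ ∃ a : ℂ, a ≠ 0 ∧ z = a • sig e (f x) := by
  obtain ⟨h1, x, hx, hx2⟩ := hz
  obtain ⟨h2, a, ha, h3⟩ := decomp he h1
  rw [← hx2] at h2 h3
  exact ⟨x, hx, h2, a, ha, h3⟩

/-- A fixed point of the flow is the centre or lies outside the support. -/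
theorem Dat.fixed (D : Dat n r c' r' f U h h' H Y) {x : Fin n → ℂ} (hx : x ∈ openBall n r)
    {τ : ℝ} (hτ0 : 0 < τ) (hτ1 : τ ≤ 1)
    (hfix : f (rotx x (-(2 * Real.pi * h' (Real.pi * nsq x)) * τ * 1)) = f x) :
    (H (f x) = 0 ∨ H (f x) = c') ∧ Y (f x) = 0 ∧
      ∀ t : ℝ, rotx x (-(2 * Real.pi * h' (Real.pi * nsq x)) * τ * t) = x := by
  have hin := D.hin x hx
  have hxU : x ∈ U := D.hBU (open_closed hx)
  have h1 := (curve D.hU D.hBU D.hfs (fun x hx => (D.hin x hx).2) hx τ 1).1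
  have h2 := D.hfi (D.hBU (open_closed h1)) hxU hfix
  by_cases hx0 : x = 0
  · subst hx0
    refine ⟨Or.inr ?_, ?_, fun t => ?_⟩
    · rw [hin.1, nsq_zero, mul_zero, D.hc']
    · rw [hin.2]
      have : (fun j => ((-(2 * Real.pi * h' (Real.pi * nsq (0 : Fin n → ℂ))) : ℝ) * Complex.I : ℂ) *
          (0 : Fin n → ℂ) j) = 0 := by
        funext j
        simp
      rw [this, map_zero]
    · funext j
      unfold rotx
      simp
  · obtain ⟨j, hj⟩ : ∃ j, x j ≠ 0 := by
      by_contra hcon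
      push Not at hcon
      exact hx0 (funext hcon)
    have h3 := congrFun h2 j
    unfold rotx at h3
    have h4 : Complex.exp (((-(2 * Real.pi * h' (Real.pi * nsq x)) * τ * 1 : ℝ) : ℂ) * Complex.I) = 1 := by
      exact mul_right_cancel₀ hj (by rw [h3, one_mul])
    have h5 : ph (h' (Real.pi * nsq x) * τ) = ph 0 := by
      rw [ph_zero, ← h4]
      unfold ph
      congr 2
      push_cast
      ring
    have hu0 : 0 ≤ Real.pi * nsq x := mul_nonneg Real.pi_pos.le (nsq_nonneg x)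
    have h6 : r' ≤ Real.pi * nsq x := by
      by_contra hcon
      push Not at hcon
      obtain ⟨h7, h8, -⟩ := D.hA _ hu0 hcon
      refine ph_ne ?_ ?_ h5
      · exact mul_neg_of_neg_of_pos h8 hτ0
      · nlinarith
    obtain ⟨h7, h8⟩ := D.hC _ h6
    refine ⟨Or.inl ?_, ?_, fun t => ?_⟩
    · rw [hin.1, h8]
    · rw [hin.2, h7]
      have : (fun j => ((-(2 * Real.pi * 0) : ℝ) * Complex.I : ℂ) * x j) = 0 := by
        funext j
        simp
      rw [this, map_zero]
    · rw [h7]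
      funext j
      unfold rotx
      simp

theorem sig_ne_zero (he : IsUni e) {y : Fin n → ℂ} (hy : y ∈ openBall n 1) : sig e y ≠ 0 := by
  intro h0
  have := norm_sig he hy
  rw [h0, norm_zero] at this
  have h1 : 0 < 1 / Real.sqrt Real.pi := by
    have : 0 < Real.sqrt Real.pi := Real.sqrt_pos.2 Real.pi_pos
    positivity
  linarith

/-- The flow statement, in the cone. -/
theorem Dat.flow (G2 : G2_statement.{u}) (he : IsUni e) (D : Dat n r c' r' f U h h' H Y)
    {X : V → V} (hXs : ∀ (a : ℂ) (z : V), X (a • z) = a • X z)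
    (hXsig : ∀ y ∈ openBall n 1, X (sig e y) = dsig e y (Y y) +
        ((vert e H y (Y y) : ℝ) * Complex.I : ℂ) • sig e y)
    {z : V} (hz : z ∈ cone e (f '' openBall n r)) {τ : ℝ} (hτ0 : 0 < τ) (hτ1 : τ ≤ 1) :
    ∃ Z : ℝ → V, Z 0 = z ∧
    (∀ t ∈ Set.Icc (0 : ℝ) 1, HasDerivWithinAt Z ((τ : ℂ) • X (Z t)) (Set.Icc 0 1) t) ∧
    (Z 1 ∈ cone e (f '' openBall n r)) ∧ ∀ s : ℝ, 0 < s → s < c' → Z 1 ≠ ph (τ * s) • z := by
  obtain ⟨x, hx, hfx, a, ha, hza⟩ := mem_cone he hz
  set κ := -(2 * Real.pi * h' (Real.pi * nsq x)) * τ with hκ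
  have hcur := fun t => curve D.hU D.hBU D.hfs (fun x hx => (D.hin x hx).2) hx τ t
  set y : ℝ → (Fin n → ℂ) := fun t => f (rotx x (κ * t)) with hy
  have hy0 : y 0 = f x := by
    rw [hy]
    simp only [mul_zero]
    congr 1
    funext j
    unfold rotx
    simp
  have hyB : ∀ t, y t ∈ openBall n 1 := fun t => D.hfB _ (hcur t).1
  obtain ⟨θ, hθ0, hθd, hθ⟩ := G2 V n e he H Y X D.hHc D.hYc hXs hXsig τ y a (fun t _ => hyB t)
    (fun t _ => (hcur t).2.hasDerivWithinAt)
  refine ⟨fun t => (a * Complex.exp (θ t * Complex.I)) • sig e (y t), ?_, hθ, ?_, ?_⟩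
  · show (a * Complex.exp (θ 0 * Complex.I)) • sig e (y 0) = z
    rw [hθ0, hy0, hza]
    simp
  · have ha1 : a * Complex.exp (θ 1 * Complex.I) ≠ 0 := mul_ne_zero ha (Complex.exp_ne_zero _)
    refine ⟨?_, ?_⟩
    · show (e ((a * Complex.exp (θ 1 * Complex.I)) • sig e (y 1))).1 ≠ 0
      rw [map_smul]
      exact mul_ne_zero ha1 (sig_fst_ne e (hyB 1))
    · show chart e ((a * Complex.exp (θ 1 * Complex.I)) • sig e (y 1)) ∈ _
      rw [chart_smul ha1, chart_sig he (hyB 1)]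
      exact ⟨_, (hcur 1).1, rfl⟩
  · intro s hs0 hsc heq
    have heq' : (a * Complex.exp (θ 1 * Complex.I)) • sig e (y 1) = ph (τ * s) • z := heq
    have ha1 : a * Complex.exp (θ 1 * Complex.I) ≠ 0 := mul_ne_zero ha (Complex.exp_ne_zero _)
    have hph : ph (τ * s) ≠ 0 := by
      intro h0
      have := ph_norm (τ * s)
      rw [h0, norm_zero] at this
      exact zero_ne_one this
    have h1 := congrArg (chart e) heq'
    rw [chart_smul ha1, chart_sig he (hyB 1), chart_smul hph, hza, chart_smul ha,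
      chart_sig he hfx] at h1
    obtain ⟨h2, h3, h4⟩ := D.fixed hx hτ0 hτ1 h1
    have hyt : ∀ t, y t = f x := fun t => congrArg f (h4 t)
    -- the vertical speed is constant
    have hv : ∀ t ∈ Set.Icc (0 : ℝ) 1,
        HasDerivWithinAt θ (-(2 * Real.pi * (τ * H (f x)))) (Set.Icc 0 1) t := by
      intro t ht
      have := hθd t ht
      rw [hyt, h3, vert_zero] at this
      refine this.congr_deriv ?_
      ring
    have hθ1 : θ 1 = -(2 * Real.pi * (τ * H (f x))) := by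
      have h5 : ∀ t ∈ Set.Icc (0 : ℝ) 1, HasDerivWithinAt
          (fun t => θ t - (-(2 * Real.pi * (τ * H (f x)))) * t) 0 (Set.Icc 0 1) t := by
        intro t ht
        have h6 := (hv t ht).sub
          (((hasDerivAt_id t).const_mul (-(2 * Real.pi * (τ * H (f x))))).hasDerivWithinAt)
        refine h6.congr_deriv ?_
        simp
      have h7 := constant_of_derivWithin_zero (f := fun t => θ t - (-(2 * Real.pi * (τ * H (f x)))) * t)
        (a := 0) (b := 1) (fun t ht => (h5 t ht).differentiableWithinAt) (by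
          intro t ht
          exact (h5 t (Set.Ico_subset_Icc_self ht)).derivWithin
            ((uniqueDiffOn_Icc one_pos) t (Set.Ico_subset_Icc_self ht))) 1 (by simp)
      simp only [mul_one, mul_zero, sub_zero, hθ0] at h7
      linarith
    have h8 : a * Complex.exp (θ 1 * Complex.I) = ph (τ * s) * a := by
      have h9 : (a * Complex.exp (θ 1 * Complex.I)) • sig e (f x) = (ph (τ * s) * a) • sig e (f x) := by
        rw [hyt] at heq'
        rw [heq', hza, smul_smul]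
      exact smul_left_injective ℂ (sig_ne_zero he hfx) h9
    have h10 : ph (τ * H (f x)) = ph (τ * s) := by
      have h11 : Complex.exp (θ 1 * Complex.I) = ph (τ * s) :=
        mul_left_cancel₀ ha (by rw [h8, mul_comm])
      rw [← h11, hθ1]
      unfold ph
      congr 2
      push_cast
      ring
    have hc1 : c' < 1 := lt_of_lt_of_le D.hcr D.hr1
    rcases h2 with h2 | h2
    · rw [h2, mul_zero] at h10
      refine ph_ne ?_ ?_ h10
      · positivity
      · nlinarith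
    · rw [h2] at h10
      refine ph_ne ?_ ?_ h10.symm
      · exact mul_lt_mul_of_pos_left hsc hτ0
      · have : 0 < τ * s := by positivity
        nlinarith


theorem om_zero_left (w : Fin n → ℂ) : Vale.Agent.P209.omega 0 w = 0 := by
  unfold Vale.Agent.P209.omega
  simp

theorem nondeg {v : Fin n → ℂ} (hv : ∀ w : Fin n → ℂ, Vale.Agent.P209.omega v w = 0) : v = 0 := by
  have h1 := hv (fun j => Complex.I * v j)
  unfold Vale.Agent.P209.omega at h1
  have h2 : ∀ j ∈ Finset.univ, (0 : ℝ) ≤ (v j).re * (Complex.I * v j).im - (v j).im * (Complex.I * v j).re := by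
    intro j _
    simp
    nlinarith [mul_self_nonneg (v j).re, mul_self_nonneg (v j).im]
  have h3 := (Finset.sum_eq_zero_iff_of_nonneg h2).1 h1
  funext j
  have h4 := h3 j (Finset.mem_univ j)
  simp at h4
  have h5 : (v j).re = 0 := by nlinarith [mul_self_nonneg (v j).re, mul_self_nonneg (v j).im]
  have h6 : (v j).im = 0 := by nlinarith [mul_self_nonneg (v j).re, mul_self_nonneg (v j).im]
  exact Complex.ext h5 h6

theorem Dat.crit (he : IsUni e) (D : Dat n r c' r' f U h h' H Y)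
    {X : V → V} (hXs : ∀ (a : ℂ) (z : V), X (a • z) = a • X z)
    (hXsig : ∀ y ∈ openBall n 1, X (sig e y) = dsig e y (Y y) +
        ((vert e H y (Y y) : ℝ) * Complex.I : ℂ) • sig e y)
    {z : V} (hz : z ∈ cone e (f '' openBall n r)) {s : ℝ} (hs0 : 0 < s) (hsc : s < c') :
    X z ≠ (-(2 * Real.pi * s : ℝ) * Complex.I : ℂ) • z := by
  obtain ⟨x, hx, hfx, a, ha, hza⟩ := mem_cone he hz
  intro heq
  rw [hza, hXs, smul_comm _ a, hXsig _ hfx] at heq
  have heq2 := smul_right_injective V ha heq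
  have heq3 := congrArg e heq2
  rw [map_add, map_smul, map_smul, e_sig] at heq3
  unfold dsig at heq3
  rw [LinearEquiv.apply_symm_apply] at heq3
  have hr := rad_pos hfx
  have h1 := congrArg Prod.fst heq3
  have h2 := congrArg Prod.snd heq3
  have h3 := congrArg Complex.im h1
  simp at h3
  have h4 : vert e H (f x) (Y (f x)) = -(2 * Real.pi * s) := by
    have h3' : (vert e H (f x) (Y (f x)) + 2 * Real.pi * s) * rad (f x) = 0 := by linarith
    have h3'' := (mul_eq_zero.1 h3').resolve_right hr.ne'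
    linarith
  have h5 : Y (f x) = 0 := by
    funext j
    have h6 := congrFun h2 j
    simp only [Prod.snd_add, Prod.smul_snd, Pi.add_apply, Pi.smul_apply, smul_eq_mul, h4] at h6
    simp only [Complex.ofReal_neg] at h6
    exact add_eq_right.1 h6
  rw [h5, vert_zero] at h4
  have h7 : H (f x) = s := by
    have hpi := Real.pi_pos
    have : 2 * Real.pi * (H (f x) - s) = 0 := by linarith
    rcases mul_eq_zero.1 this with h8 | h8
    · exfalso
      linarith
    · linarith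
  obtain ⟨h8, h9⟩ := D.hin x hx
  rw [h5] at h9
  have hxU : x ∈ U := D.hBU (open_closed hx)
  have h10 : (fun j => ((-(2 * Real.pi * h' (Real.pi * nsq x)) : ℝ) * Complex.I : ℂ) * x j) = 0 := by
    refine nondeg fun w => ?_
    rw [← D.hfo x hxU, ← h9, om_zero_left]
  have hu0 : 0 ≤ Real.pi * nsq x := mul_nonneg Real.pi_pos.le (nsq_nonneg x)
  by_cases h11 : r' ≤ Real.pi * nsq x
  · obtain ⟨-, h12⟩ := D.hC _ h11
    rw [h12] at h8
    linarith
  · push Not at h11
    obtain ⟨-, h12, -⟩ := D.hA _ hu0 h11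
    have h13 : x = 0 := by
      funext j
      have h14 := congrFun h10 j
      have h15 : ((-(2 * Real.pi * h' (Real.pi * nsq x)) : ℝ) * Complex.I : ℂ) ≠ 0 := by
        refine mul_ne_zero (Complex.ofReal_ne_zero.2 ?_) Complex.I_ne_zero
        have := mul_pos (mul_pos two_pos Real.pi_pos) (neg_pos.2 h12)
        intro h16
        linarith
      exact (mul_eq_zero.1 h14).resolve_left h15
    rw [h13, nsq_zero, mul_zero, D.hc'] at h8
    rw [h13] at h7
    linarith

/-- The lower bound by compactness. -/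
theorem lower_bound {G : V → ℝ} (hGc : Continuous G) (hG0 : ∀ z, 0 ≤ G z)
    (hGs : ∀ (a : ℂ) (z : V), G (a • z) = ‖a‖ ^ 2 * G z) {p : V} (hp : ‖p‖ = 1) {c' : ℝ}
    (hGp : G p = Real.pi * c') {c'' : ℝ} (hc : c'' < c') : ∃ C : ℝ, ∀ z,
    Real.pi * c'' * ‖z‖ ^ 2 - C * ‖z - (inner ℂ p z : ℂ) • p‖ ^ 2 ≤ G z := by
  have hpi := Real.pi_pos
  haveI : ProperSpace V := FiniteDimensional.proper ℂ V
  set T : V → V := fun z => z - (inner ℂ p z : ℂ) • p with hT
  have hTc : Continuous T := by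
    rw [hT]
    fun_prop
  have hTs : ∀ (a : ℂ) (z : V), T (a • z) = a • T z := by
    intro a z
    show a • z - (inner ℂ p (a • z) : ℂ) • p = a • (z - (inner ℂ p z : ℂ) • p)
    rw [inner_smul_right, smul_sub, smul_smul]
  set S : Set V := Metric.sphere 0 1 ∩ {z | G z ≤ Real.pi * c''} with hS
  have hSc : IsCompact S := (isCompact_sphere 0 1).inter_right (isClosed_le hGc continuous_const)
  have hpos : ∀ z ∈ S, 0 < ‖T z‖ := by
    rintro z ⟨hz1, hz2⟩
    rw [mem_sphere_zero_iff_norm] at hz1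
    refine norm_pos_iff.2 fun h0 => ?_
    have h1 : z = (inner ℂ p z : ℂ) • p := sub_eq_zero.1 h0
    have h2 : ‖(inner ℂ p z : ℂ)‖ = 1 := by
      have := congrArg norm h1
      rw [norm_smul, hp, mul_one, hz1] at this
      exact this.symm
    have h3 : G z = Real.pi * c' := by
      rw [h1, hGs, h2, hGp]
      ring
    have h4 : G z ≤ Real.pi * c'' := hz2
    have h5 : Real.pi * c'' < Real.pi * c' := mul_lt_mul_of_pos_left hc hpi
    linarith
  obtain ⟨δ, hδ, hδS⟩ : ∃ δ : ℝ, 0 < δ ∧ ∀ z ∈ S, δ ≤ ‖T z‖ := by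
    rcases S.eq_empty_or_nonempty with he | hne
    · exact ⟨1, one_pos, fun z hz => by rw [he] at hz; exact absurd hz (Set.notMem_empty z)⟩
    · obtain ⟨z0, hz0, hmin⟩ := hSc.exists_isMinOn hne (hTc.norm.continuousOn)
      exact ⟨‖T z0‖, hpos z0 hz0, fun z hz => hmin hz⟩
  refine ⟨Real.pi * |c''| / δ ^ 2, fun z => ?_⟩
  show Real.pi * c'' * ‖z‖ ^ 2 - Real.pi * |c''| / δ ^ 2 * ‖T z‖ ^ 2 ≤ G z
  by_cases hz : z = 0
  · subst hz
    have h1 : T 0 = 0 := by
      have := hTs 0 0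
      simpa using this
    rw [h1]
    simpa using hG0 0
  · have hzn : 0 < ‖z‖ := norm_pos_iff.2 hz
    set w : V := ((‖z‖⁻¹ : ℝ) : ℂ) • z with hw
    have hzw : z = ((‖z‖ : ℝ) : ℂ) • w := by
      rw [hw, smul_smul, ← Complex.ofReal_mul, mul_inv_cancel₀ hzn.ne']
      simp
    have hwn : ‖w‖ = 1 := by
      rw [hw, norm_smul, Complex.norm_real, Real.norm_of_nonneg (by positivity),
        inv_mul_cancel₀ hzn.ne']
    have key : Real.pi * c'' - Real.pi * |c''| / δ ^ 2 * ‖T w‖ ^ 2 ≤ G w := by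
      by_cases h1 : G w ≤ Real.pi * c''
      · have h2 := hδS w ⟨by rw [mem_sphere_zero_iff_norm]; exact hwn, h1⟩
        have h3 : δ ^ 2 ≤ ‖T w‖ ^ 2 := pow_le_pow_left₀ hδ.le h2 2
        have h4 : Real.pi * |c''| ≤ Real.pi * |c''| / δ ^ 2 * ‖T w‖ ^ 2 := by
          rw [div_mul_eq_mul_div, le_div_iff₀ (by positivity)]
          exact mul_le_mul_of_nonneg_left h3 (by positivity)
        have h5 : Real.pi * c'' ≤ Real.pi * |c''| := mul_le_mul_of_nonneg_left (le_abs_self _) hpi.le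
        have h6 := hG0 w
        linarith
      · push Not at h1
        have h2 : 0 ≤ Real.pi * |c''| / δ ^ 2 * ‖T w‖ ^ 2 := by positivity
        linarith
    have h1 : G z = ‖z‖ ^ 2 * G w := by
      conv_lhs => rw [hzw]
      rw [hGs, Complex.norm_real, norm_norm]
    have h2 : ‖T z‖ = ‖z‖ * ‖T w‖ := by
      conv_lhs => rw [hzw]
      rw [hTs, norm_smul, Complex.norm_real, norm_norm]
    rw [h1, h2]
    have h3 := mul_le_mul_of_nonneg_left key (sq_nonneg ‖z‖)
    have h4 : Real.pi * c'' * ‖z‖ ^ 2 - Real.pi * |c''| / δ ^ 2 * (‖z‖ * ‖T w‖) ^ 2 =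
        ‖z‖ ^ 2 * (Real.pi * c'' - Real.pi * |c''| / δ ^ 2 * ‖T w‖ ^ 2) := by ring
    rw [h4]
    exact h3


end main

/-- **Row G4.** -/
theorem G4 (G1 : G1_statement.{u}) (G2 : G2_statement.{u}) (G3 : G3_statement) :
    G4_statement.{u} := by
  intro V _ _ _ n e he l hl r c f hc hcr hr1 hf hfB
  obtain ⟨h, h', r', H, Y, hr'0, hr'r, hch, hhr, hA, hB, hC, hHs, hF, hH0, hHle, hoff, hin⟩ :=
    G3 n r c f hc hcr hf
  obtain ⟨U, hU, hBU, hfs, hfe, hfo⟩ := hf
  have hinj : Set.InjOn f U := by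
    intro z hz w hw hzw
    have := hfe.injective (a₁ := ⟨z, hz⟩) (a₂ := ⟨w, hw⟩) hzw
    exact congrArg Subtype.val this
  have hsub : closedBall n r' ⊆ openBall n r := fun z hz => lt_of_le_of_lt hz hr'r
  have hBc : IsCompact (closedBall n r') := by
    refine Metric.isCompact_of_isClosed_isBounded ?_ ?_
    · exact isClosed_le (by fun_prop) continuous_const
    · refine (Metric.isBounded_closedBall (x := (0 : Fin n → ℂ))
        (r := Real.sqrt (r' / Real.pi))).subset ?_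
      intro z hz
      rw [mem_closedBall_zero_iff, pi_norm_le_iff_of_nonneg (Real.sqrt_nonneg _)]
      intro j
      have h1 : Real.pi * ∑ j, ‖z j‖ ^ 2 ≤ r' := hz
      have h2 : ‖z j‖ ^ 2 ≤ ∑ j, ‖z j‖ ^ 2 :=
        Finset.single_le_sum (fun i _ => sq_nonneg ‖z i‖) (Finset.mem_univ j)
      apply Real.le_sqrt_of_sq_le
      rw [le_div_iff₀ Real.pi_pos]
      nlinarith only [h1, h2, Real.pi_pos]
  have hfc : ContinuousOn f (closedBall n r') :=
    hfs.continuousOn.mono fun z hz => hBU (open_closed (hsub hz))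
  have hSc : IsCompact (f '' closedBall n r') := hBc.image_of_continuousOn hfc
  have hsupp : tsupport H ⊆ f '' closedBall n r' := by
    refine closure_minimal ?_ hSc.isClosed
    intro y hy
    by_contra hcon
    exact hy (hoff y hcon).1
  have hcs : HasCompactSupport H := hSc.of_isClosed_subset (isClosed_tsupport H) hsupp
  have hts : tsupport H ⊆ openBall n 1 := by
    intro y hy
    obtain ⟨x, hx, rfl⟩ := hsupp hy
    exact hfB ⟨x, open_closed (hsub hx), rfl⟩
  obtain ⟨X, K, C, hG, hX, hXs, hGs, hXoff, hup, hXsig⟩ := G1 V n e he H Y hHs hcs hts hF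
  have D : Dat n r (h 0) r' f U h h' H Y :=
    { hU := hU
      hBU := hBU
      hfs := hfs
      hfi := hinj
      hfo := hfo
      hc' := rfl
      hc0 := hc.trans hch
      hcr := hhr
      hr1 := hr1
      hr'0 := hr'0
      hr'r := hr'r
      hA := hA
      hC := hC
      hH0 := hH0
      hHc := hHs.continuous
      hYc := field_continuous hHs hF
      hin := hin
      hfB := fun x hx => hfB ⟨x, open_closed hx, rfl⟩ }
  have hr0 : 0 < r := hr'0.trans hr'r
  have h0m : (0 : Fin n → ℂ) ∈ openBall n r := zero_mem hr0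
  have hf0 : f 0 ∈ openBall n 1 := D.hfB 0 h0m
  have hpi := Real.pi_pos
  have hsq : 0 < Real.sqrt Real.pi := Real.sqrt_pos.2 hpi
  have hspi : ((Real.sqrt Real.pi : ℝ) : ℂ) ≠ 0 := Complex.ofReal_ne_zero.2 hsq.ne'
  have hXoff' : ∀ z, z ∉ cone e (f '' openBall n r) → X z = 0 := by
    intro z hz
    refine hXoff z fun hz' => hz ⟨hz'.1, ?_⟩
    obtain ⟨x, hx, hx2⟩ := hsupp hz'.2
    exact ⟨x, hsub hx, hx2⟩
  have hnp : ‖((Real.sqrt Real.pi : ℝ) : ℂ) • sig e (f 0)‖ = 1 := by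
    rw [norm_smul, norm_sig he hf0, Complex.norm_real, Real.norm_of_nonneg hsq.le]
    field_simp
  have hlift0 : ∀ z, 0 ≤ lift e H z := by
    intro z
    unfold lift
    split_ifs with h1
    · exact le_rfl
    · exact mul_nonneg (by positivity) (hH0 _)
  have hliftp : lift e H (((Real.sqrt Real.pi : ℝ) : ℂ) • sig e (f 0)) = Real.pi * h 0 := by
    unfold lift
    have h1 : (e (((Real.sqrt Real.pi : ℝ) : ℂ) • sig e (f 0))).1 ≠ 0 := by
      rw [map_smul]
      exact mul_ne_zero hspi (sig_fst_ne e hf0)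
    rw [if_neg h1, hnp, chart_smul hspi, chart_sig he hf0, (hin 0 h0m).1, nsq_zero]
    simp
  have hliftc : Continuous (lift e H) :=
    continuous_iff_continuousAt.2 fun z => (hG z).continuousAt
  refine ⟨h 0, hch, hhr, ⟨
    { G := lift e H
      X := X
      K := K
      p := ((Real.sqrt Real.pi : ℝ) : ℂ) • sig e (f 0)
      hG := hG
      hX := hX
      X_smul := hXs
      G_smul := hGs
      X_off := hXoff'
      flow := ?_
      crit := ?_
      upper := ⟨C, fun z => by rw [hl]; exact hup z⟩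
      norm_p := hnp
      lower := fun c'' hc'' => lower_bound hliftc hlift0 hGs hnp hliftp hc'' }⟩⟩
  · intro z hz τ hτ0 hτ1
    by_cases hzc : z ∈ cone e (f '' openBall n r)
    · obtain ⟨Z, h1, h2, h3, h4⟩ := D.flow G2 he hXs hXsig hzc hτ0 hτ1
      exact ⟨Z, h1, h2, fun _ => h3, h4⟩
    · refine ⟨fun _ => z, rfl, ?_, fun hz' => absurd hz' hzc, ?_⟩
      · intro t _
        rw [hXoff' z hzc, smul_zero]
        exact hasDerivWithinAt_const _ _ _
      · intro s hs0 hsc heq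
        have h1 : (ph (τ * s) - 1) • z = 0 := by
          have heq' : z = ph (τ * s) • z := heq
          rw [sub_smul, one_smul, ← heq', sub_self]
        have h2 : ph 0 = ph (τ * s) := by
          rw [ph_zero]
          exact (sub_eq_zero.1 ((smul_eq_zero.1 h1).resolve_right hz)).symm
        refine ph_ne ?_ ?_ h2
        · positivity
        · have h3 : h 0 < 1 := lt_of_lt_of_le hhr hr1
          nlinarith
  · intro z hz s hs0 hsc
    by_cases hzc : z ∈ cone e (f '' openBall n r)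
    · exact D.crit he hXs hXsig hzc hs0 hsc
    · rw [hXoff' z hzc]
      intro heq
      have h1 : (-(2 * Real.pi * s : ℝ) * Complex.I : ℂ) ≠ 0 := by
        refine mul_ne_zero (neg_ne_zero.2 (Complex.ofReal_ne_zero.2 (by positivity))) Complex.I_ne_zero
      exact (smul_ne_zero h1 hz) heq.symm

end Vale.Agent.P209.H578.NecG4
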