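import Vale.Agent.P209.Bdl.B1

set_option linter.all false

/-!
Interface for the geometric engine (suspension, shaking, placing, assembly) on
`ℂ^(d+1) = Fin (d+1) → ℂ`; slot `0` is `p + i θ` with a real angle `θ`, the slots `a.succ` are
disc coordinates with action `π |z|²`.
-/

namespace Vale.Agent.P209.H578

open scoped ContDiff

/-- the actions of the disc slots -/
noncomputable def uu {d : ℕ} (w : Fin (d + 1) → ℂ) : Fin d → ℝ :=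
  fun a => Real.pi * ‖w a.succ‖ ^ 2

/-- the open disc of capacity `A` -/
def dsc (A : ℝ) : Set ℂ := {z | Real.pi * ‖z‖ ^ 2 < A}

/-- `Om` is a bounded convex down-set of the orthant, relatively open in the orthant. -/
structure Dom {d : ℕ} (Om : Set (Fin d → ℝ)) : Prop where
  nonneg : ∀ u ∈ Om, ∀ a, 0 ≤ u a
  relopen : ∃ O : Set (Fin d → ℝ), IsOpen O ∧ Om = O ∩ {u | ∀ a, 0 ≤ u a}
  convex : Convex ℝ Om
  down : ∀ u ∈ Om, ∀ v : Fin d → ℝ, (∀ a, 0 ≤ v a) → (∀ a, v a ≤ u a) → v ∈ Om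
  bdd : ∃ B : ℝ, ∀ u ∈ Om, ∀ a, u a ≤ B

/-- the tent of a ball of capacity `r` -/
noncomputable def tent {d : ℕ} (r : ℝ) (u : Fin d → ℝ) : ℝ := max (r - ∑ a, u a) 0

/-- `f` is concave and continuous on `Om` and increases with slope at most `1`. -/
structure Sta {d : ℕ} (Om : Set (Fin d → ℝ)) (f : (Fin d → ℝ) → ℝ) : Prop where
  concave : ConcaveOn ℝ Om f
  cont : ContinuousOn f Om
  slope : ∀ u ∈ Om, ∀ a : Fin d, ∀ h : ℝ, 0 ≤ h → Function.update u a (u a + h) ∈ Om →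
    f (Function.update u a (u a + h)) ≤ f u + h

/-- `f` is nonincreasing in direction `a` on `Om` -/
def AntiD {d : ℕ} (Om : Set (Fin d → ℝ)) (a : Fin d) (f : (Fin d → ℝ) → ℝ) : Prop :=
  ∀ u ∈ Om, ∀ h : ℝ, 0 ≤ h → Function.update u a (u a + h) ∈ Om →
    f (Function.update u a (u a + h)) ≤ f u

/-- `f'` is at most the decreasing rearrangement of `f` in direction `a`. -/
def ShkLe {d : ℕ} (Om : Set (Fin d → ℝ)) (a : Fin d) (f f' : (Fin d → ℝ) → ℝ) : Prop :=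
  ∀ u ∈ Om, ∀ p : ℝ, (∀ x : ℝ, 0 ≤ x → Function.update u a (x + u a) ∈ Om →
    min (f (Function.update u a x)) (f (Function.update u a (x + u a))) ≤ p) → f' u ≤ p

/-- A move: a symplectic map on an open set `V`, which keeps `p` and is such that points with the
same shadow `(p, z)` after the move had the same shadow and the same difference of angles before. -/
structure Mov {d : ℕ} (V : Set (Fin (d + 1) → ℂ)) (F : (Fin (d + 1) → ℂ) → (Fin (d + 1) → ℂ)) :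
    Prop where
  isOpen : IsOpen V
  smooth : ContDiffOn ℝ ∞ F V
  sympl : ∀ w ∈ V, ∀ v v' : Fin (d + 1) → ℂ, omega (fderiv ℝ F w v) (fderiv ℝ F w v') = omega v v'
  re0 : ∀ w ∈ V, (F w 0).re = (w 0).re
  fib : ∀ w ∈ V, ∀ w' ∈ V, (w 0).re = (w' 0).re → (∀ a : Fin d, F w a.succ = F w' a.succ) →
    (∀ a : Fin d, w a.succ = w' a.succ) ∧ (F w 0).im - (F w' 0).im = (w 0).im - (w' 0).im

/-- (DL) disc lemma -/
def DiscLemma : Prop := ∀ A ε : ℝ, 0 < A → 0 < ε →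
  ∃ (Ψ : ℝ × ℂ → ℂ) (h : ℝ × ℂ → ℝ) (φ : ℂ → ℝ),
    ContDiffOn ℝ ∞ Ψ (Set.univ ×ˢ dsc A) ∧ ContDiffOn ℝ ∞ h (Set.univ ×ˢ dsc A) ∧
    ContDiffOn ℝ ∞ φ (dsc A) ∧
    (∀ s, Set.InjOn (fun z => Ψ (s, z)) (dsc A)) ∧
    (∀ s, ∀ z ∈ dsc A, ∀ v w, om1 (fderiv ℝ (fun z => Ψ (s, z)) z v)
      (fderiv ℝ (fun z => Ψ (s, z)) z w) = om1 v w) ∧
    (∀ s, ∀ z ∈ dsc A, ∀ v, fderiv ℝ (fun z => h (s, z)) z v =
      om1 (deriv (fun t => Ψ (t, z)) s) (fderiv ℝ (fun z => Ψ (s, z)) z v)) ∧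
    (∀ s ≤ 0, ∀ z ∈ dsc A, Ψ (s, z) = z ∧ h (s, z) = 0) ∧
    (∀ s, ∀ z ∈ dsc A, max s 0 - ε ≤ Real.pi * ‖Ψ (s, z)‖ ^ 2 ∧
      Real.pi * ‖Ψ (s, z)‖ ^ 2 ≤ Real.pi * ‖z‖ ^ 2 + max s 0 + ε) ∧
    (∀ s, ε ≤ s → ∀ z ∈ dsc A, Ψ (s, z) ≠ 0 ∧
      Ψ (s, z) = (‖Ψ (s, z)‖ : ℂ) * Complex.exp (2 * Real.pi * φ z * Complex.I))

/-- (DCONT) the smooth length function of the holes `{f > p}` of the lines in direction `a` -/
def DContLemma : Prop := ∀ (d : ℕ) (Om : Set (Fin d → ℝ)) (a : Fin d) (f : (Fin d → ℝ) → ℝ),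
  Dom Om → Sta Om f → ∀ (K : Set (ℝ × (Fin d → ℝ))), IsCompact K → (∀ q ∈ K, q.2 ∈ Om) →
  ∀ ε : ℝ, 0 < ε → ∃ ε' : ℝ, 0 < ε' ∧ ∃ D : ℝ × (Fin d → ℝ) → ℝ, ContDiff ℝ ∞ D ∧
    (∀ p u y, D (p, Function.update u a y) = D (p, u)) ∧
    ∃ N : Set (ℝ × (Fin d → ℝ)), IsOpen N ∧ K ⊆ N ∧
      (∀ p u y, (p, u) ∈ N → (p, Function.update u a y) ∈ N) ∧
      ∀ p u, (p, u) ∈ N → u ∈ Om → f u < p →
        ((∃ y, u a < y ∧ Function.update u a y ∈ Om ∧ p < f (Function.update u a y)) →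
          0 < D (p, u) → ∃ y, u a + D (p, u) + ε' < y ∧ Function.update u a y ∈ Om ∧
            p < f (Function.update u a y)) ∧
        ((∃ y, u a < y ∧ Function.update u a y ∈ Om ∧ p < f (Function.update u a y)) →
          ∀ x y, 0 ≤ x → 0 ≤ y → max (D (p, u)) 0 - ε' ≤ y → Function.update u a (x + y) ∈ Om →
            min (f (Function.update u a x)) (f (Function.update u a (x + y))) ≤ p + ε) ∧
        ((∀ y, Function.update u a y ∈ Om → f (Function.update u a y) ≤ p) → D (p, u) < 0)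

/-- (SHAKE) -/
def ShakeLemma : Prop := ∀ (d : ℕ) (Om : Set (Fin d → ℝ)) (a : Fin d) (f f' g : (Fin d → ℝ) → ℝ),
  Dom Om → Sta Om f → ShkLe Om a f f' → AntiD Om a g → (∀ u ∈ Om, f u ≤ g u) →
  ∀ K : Set (Fin (d + 1) → ℂ), IsCompact K → (∀ w ∈ K, uu w ∈ Om ∧ f (uu w) < (w 0).re) →
  ∀ ε : ℝ, 0 < ε → ∃ (V : Set (Fin (d + 1) → ℂ)) (F : (Fin (d + 1) → ℂ) → (Fin (d + 1) → ℂ)),
    Mov V F ∧ K ⊆ V ∧ ∀ w ∈ V, uu (F w) ∈ Om ∧ f' (uu (F w)) - ε < (w 0).re ∧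
      ((w 0).re < g (uu w) → (w 0).re < g (uu (F w)))

/-- (PLACE) -/
def PlaceLemma : Prop := ∀ (d : ℕ) (Om : Set (Fin d → ℝ)) (f : (Fin d → ℝ) → ℝ) (r r' : ℝ),
  Dom Om → ContinuousOn f Om → 0 < r → r < r' →
  (∀ u : Fin d → ℝ, (∀ a, 0 ≤ u a) → ∑ a, u a ≤ r' → u ∈ Om) →
  ∃ F : (Fin (d + 1) → ℂ) → (Fin (d + 1) → ℂ), IsSymplecticEmbedding r F ∧
    (∀ z ∈ closedBall (d + 1) r, uu (F z) ∈ Om ∧ f (uu (F z)) - tent r' (uu (F z)) < (F z 0).re ∧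
      (F z 0).re < f (uu (F z))) ∧
    (∀ z ∈ closedBall (d + 1) r, ∀ z' ∈ closedBall (d + 1) r, (F z 0).re = (F z' 0).re →
      (∀ a : Fin d, F z a.succ = F z' a.succ) → (∃ m : ℤ, (F z 0).im - (F z' 0).im = m) → z = z')

/-- The packing state: for every `ε`, the balls of capacities `r i` sit in `f - ε < p < g`, with
pairwise disjoint shadows, and each ball is injective modulo integer translations of the angle. -/
def PS {d : ℕ} {ι : Type} (Om : Set (Fin d → ℝ)) (g f : (Fin d → ℝ) → ℝ) (r : ι → ℝ) : Prop :=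
  ∀ ε : ℝ, 0 < ε → ∃ F : ι → (Fin (d + 1) → ℂ) → (Fin (d + 1) → ℂ),
    (∀ i, IsSymplecticEmbedding (r i) (F i)) ∧
    (∀ i, ∀ z ∈ closedBall (d + 1) (r i), uu (F i z) ∈ Om ∧
      f (uu (F i z)) - ε < (F i z 0).re ∧ (F i z 0).re < g (uu (F i z))) ∧
    (∀ i j, ∀ z ∈ closedBall (d + 1) (r i), ∀ z' ∈ closedBall (d + 1) (r j),
      (F i z 0).re = (F j z' 0).re → (∀ a : Fin d, F i z a.succ = F j z' a.succ) →
      i = j ∧ ((∃ m : ℤ, (F i z 0).im - (F j z' 0).im = m) → z = z'))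

end Vale.Agent.P209.H578
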