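import Vale.Agent.P209.H578.Asm2
import Vale.Agent.P209.H863.DiscLemma
import Vale.Agent.P209.H721.DCont
import Vale.Agent.P209.H686.Shake
import Vale.Agent.P209.H974.Place

set_option linter.all false

/-! The geometric engine without hypotheses. -/

namespace Vale.Agent.P209.H578

open scoped ContDiff
open H856 (shk shkL psi psiL DomOK AntiDir Cls State)

theorem suspLemma : H686.SuspLemma := by
  intro d a A ε hA hε D hD hDu
  obtain ⟨Ψ, h, φ, h1, h2, -, h4, h5, h6, h7, h8, -⟩ := H863.discLemma A ε hA hε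
  refine ⟨susp a Ψ h D, susp_mov h1 h2 hD hDu h4 h5 h6, ?_⟩
  intro w hw
  have h9 := h8 (D (qq w)) _ hw
  refine ⟨fun b hb => uu_susp_ne w hb, fun hD0 => susp_of_nonpos h7 hw hD0, ?_, ?_⟩
  · rw [uu_susp_self]
    exact h9.1
  · rw [uu_susp_self]
    exact h9.2

theorem shakeLemma : ShakeLemma := H686.shakeLemma_of H721.dcont suspLemma

/-- **The engine.** For a state `g` on `Om`, balls of capacities `r i < r' i` are packed between
`psiL Om r' g - ε` and `g`. -/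
theorem engine {d : ℕ} {Om : Set (Fin d → ℝ)} {B κ : ℝ} (hD : DomOK Om B κ)
    (ho : ∃ O : Set (Fin d → ℝ), IsOpen O ∧ Om = O ∩ {u | ∀ a, 0 ≤ u a})
    {Λ M : ℝ} {g : (Fin d → ℝ) → ℝ} (hg : State Om Λ M g) (hΛ : 0 ≤ Λ) (k : ℕ)
    (r r' : Fin k → ℝ) (h0 : ∀ i, 0 < r i) (h1 : ∀ i, r i < r' i)
    (h2 : ∀ i, ∀ u : Fin d → ℝ, (∀ a, 0 ≤ u a) → ∑ a, u a ≤ r' i → u ∈ Om) :
    PS Om g (psiL Om (List.ofFn r') g) r :=
  assembly H974.placeLemma shakeLemma hD ho hg hΛ k r r' h0 h1 h2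

end Vale.Agent.P209.H578
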