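import Vale.Agent.P209.H578.Susp

set_option linter.all false

/-! Assembly: the packing state is closed under placing a ball and under shaking. -/

namespace Vale.Agent.P209.H578

open scoped ContDiff

section

variable {d : ℕ}

/-- composition of symplectic maps at a point -/
theorem sympl_comp {n : ℕ} {U V : Set (Fin n → ℂ)} {F G : (Fin n → ℂ) → (Fin n → ℂ)}
    (hU : IsOpen U) (hV : IsOpen V) (hF : ContDiffOn ℝ ∞ F U) (hG : ContDiffOn ℝ ∞ G V)
    (hFs : ∀ z ∈ U, ∀ v w, omega (fderiv ℝ F z v) (fderiv ℝ F z w) = omega v w)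
    (hGs : ∀ z ∈ V, ∀ v w, omega (fderiv ℝ G z v) (fderiv ℝ G z w) = omega v w)
    {z : Fin n → ℂ} (hz : z ∈ U) (hFz : F z ∈ V) (v w : Fin n → ℂ) :
    omega (fderiv ℝ (fun z => G (F z)) z v) (fderiv ℝ (fun z => G (F z)) z w) = omega v w := by
  have h1 : DifferentiableAt ℝ F z :=
    (hF.contDiffAt (hU.mem_nhds hz)).differentiableAt (by simp)
  have h2 : DifferentiableAt ℝ G (F z) :=
    (hG.contDiffAt (hV.mem_nhds hFz)).differentiableAt (by simp)
  have h3 : fderiv ℝ (fun z => G (F z)) z = (fderiv ℝ G (F z)).comp (fderiv ℝ F z) :=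
    fderiv_comp z h2 h1
  rw [h3]
  simp only [ContinuousLinearMap.comp_apply]
  rw [hGs _ hFz, hFs _ hz]

theorem Mov.inj {V : Set (Fin (d + 1) → ℂ)} {F : (Fin (d + 1) → ℂ) → (Fin (d + 1) → ℂ)}
    (hF : Mov V F) : Set.InjOn F V := by
  intro w hw w' hw' h
  have h0 : (w 0).re = (w' 0).re := by
    rw [← hF.re0 w hw, ← hF.re0 w' hw', h]
  obtain ⟨h1, h2⟩ := hF.fib w hw w' hw' h0 (fun a => by rw [h])
  rw [h, sub_self] at h2
  funext j
  refine Fin.cases ?_ (fun b => h1 b) j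
  exact Complex.ext h0 (by linarith)

/-- composition of a ball embedding with a symplectic injective map -/
theorem embedding_comp {n : ℕ} {r : ℝ} {F G : (Fin n → ℂ) → (Fin n → ℂ)} {V : Set (Fin n → ℂ)}
    (hF : IsSymplecticEmbedding r F) (hV : IsOpen V) (hG : ContDiffOn ℝ ∞ G V)
    (hGi : Set.InjOn G V)
    (hGs : ∀ z ∈ V, ∀ v w, omega (fderiv ℝ G z v) (fderiv ℝ G z w) = omega v w)
    (hFV : ∀ z ∈ closedBall n r, F z ∈ V) : IsSymplecticEmbedding r (fun z => G (F z)) := by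
  obtain ⟨U, hU, hBU, hFs, hFe, hFo⟩ := hF
  have hinj : Set.InjOn F U := by
    intro z hz w hw h
    have := hFe.injective (a₁ := ⟨z, hz⟩) (a₂ := ⟨w, hw⟩) h
    exact congrArg Subtype.val this
  have hU' : IsOpen (U ∩ F ⁻¹' V) := hFs.continuousOn.isOpen_inter_preimage hU hV
  have hsm : ContDiffOn ℝ ∞ (fun z => G (F z)) (U ∩ F ⁻¹' V) :=
    hG.comp (hFs.mono Set.inter_subset_left) fun z hz => hz.2
  have hs : ∀ z ∈ U ∩ F ⁻¹' V, ∀ v w : Fin n → ℂ,
      omega (fderiv ℝ (fun z => G (F z)) z v) (fderiv ℝ (fun z => G (F z)) z w) = omega v w :=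
    fun z hz v w => sympl_comp hU hV hFs hG hFo hGs hz.1 hz.2 v w
  refine ⟨U ∩ F ⁻¹' V, hU', fun z hz => ⟨hBU hz, hFV z hz⟩, hsm, ?_, hs⟩
  refine isOpenEmbedding_of_sympl hU' hsm ?_ hs
  intro z hz w hw h
  exact hinj hz.1 hw.1 (hGi hz.2 hw.2 h)

theorem embedding_continuousOn {n : ℕ} {r : ℝ} {F : (Fin n → ℂ) → (Fin n → ℂ)}
    (hF : IsSymplecticEmbedding r F) : ContinuousOn F (closedBall n r) := by
  obtain ⟨U, hU, hBU, hFs, -⟩ := hF
  exact hFs.continuousOn.mono hBU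

theorem Sta.sub_const {Om : Set (Fin d → ℝ)} {f : (Fin d → ℝ) → ℝ} (h : Sta Om f) (c : ℝ) :
    Sta Om (fun u => f u - c) where
  concave := h.concave.sub (convexOn_const c h.concave.1)
  cont := h.cont.sub continuousOn_const
  slope := by
    intro u hu a t ht hut
    have := h.slope u hu a t ht hut
    show f (Function.update u a (u a + t)) - c ≤ f u - c + t
    linarith

theorem ShkLe.sub_const {Om : Set (Fin d → ℝ)} {a : Fin d} {f f' : (Fin d → ℝ) → ℝ}
    (h : ShkLe Om a f f') (c : ℝ) : ShkLe Om a (fun u => f u - c) (fun u => f' u - c) := by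
  intro u hu p hp
  have h1 := h u hu (p + c) (by
    intro x hx hxu
    have h2 := hp x hx hxu
    rcases min_le_iff.1 h2 with h3 | h3
    · exact (min_le_left _ _).trans (by linarith)
    · exact (min_le_right _ _).trans (by linarith))
  show f' u - c ≤ p
  linarith

/-- shaking -/
theorem PS.shake (HS : ShakeLemma) {ι : Type} [Finite ι] {Om : Set (Fin d → ℝ)}
    {g f f' : (Fin d → ℝ) → ℝ} {r : ι → ℝ} {a : Fin d} (hOm : Dom Om) (hf : Sta Om f)
    (hff : ShkLe Om a f f') (hg : AntiD Om a g) (hfg : ∀ u ∈ Om, f u ≤ g u)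
    (h : PS Om g f r) : PS Om g f' r := by
  intro ε hε
  obtain ⟨F, hF1, hF2, hF3⟩ := h (ε / 2) (by positivity)
  set K : Set (Fin (d + 1) → ℂ) := ⋃ i, F i '' closedBall (d + 1) (r i) with hK
  have hKc : IsCompact K := isCompact_iUnion fun i =>
    (V.n1_isCompact (d + 1) (r i)).image_of_continuousOn (embedding_continuousOn (hF1 i))
  have hKm : ∀ i, ∀ z ∈ closedBall (d + 1) (r i), F i z ∈ K := fun i z hz =>
    Set.mem_iUnion.2 ⟨i, z, hz, rfl⟩
  obtain ⟨V, G, hG, hKV, hGV⟩ := HS d Om a (fun u => f u - ε / 2) (fun u => f' u - ε / 2) g hOm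
    (hf.sub_const _) (hff.sub_const _) hg (fun u hu => by have := hfg u hu; linarith) K hKc (by
      intro w hw
      obtain ⟨i, z, hz, rfl⟩ := Set.mem_iUnion.1 hw
      obtain ⟨h1, h2, -⟩ := hF2 i z hz
      exact ⟨h1, h2⟩) (ε / 2) (by positivity)
  refine ⟨fun i z => G (F i z), ?_, ?_, ?_⟩
  · intro i
    exact embedding_comp (hF1 i) hG.isOpen hG.smooth hG.inj hG.sympl fun z hz => hKV (hKm i z hz)
  · intro i z hz
    have hm := hKV (hKm i z hz)
    obtain ⟨h1, h2, h3⟩ := hGV _ hm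
    rw [hG.re0 _ hm]
    refine ⟨h1, ?_, h3 (hF2 i z hz).2.2⟩
    linarith
  · intro i j z hz z' hz' h0 he
    have hm := hKV (hKm i z hz)
    have hm' := hKV (hKm j z' hz')
    rw [hG.re0 _ hm, hG.re0 _ hm'] at h0
    obtain ⟨h1, h2⟩ := hG.fib _ hm _ hm' h0 he
    obtain ⟨h3, h4⟩ := hF3 i j z hz z' hz' h0 h1
    refine ⟨h3, fun hm => h4 ?_⟩
    rw [← h2]
    exact hm

/-- monotonicity in the lower state -/
theorem PS.mono {ι : Type} {Om : Set (Fin d → ℝ)} {g f f' : (Fin d → ℝ) → ℝ} {r : ι → ℝ}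
    (h : PS Om g f r) (hff : ∀ u ∈ Om, f' u ≤ f u) : PS Om g f' r := by
  intro ε hε
  obtain ⟨F, hF1, hF2, hF3⟩ := h ε hε
  refine ⟨F, hF1, ?_, hF3⟩
  intro i z hz
  obtain ⟨h1, h2, h3⟩ := hF2 i z hz
  exact ⟨h1, by have := hff _ h1; linarith, h3⟩

/-- reindexing -/
theorem PS.reindex {ι κ : Type} {Om : Set (Fin d → ℝ)} {g f : (Fin d → ℝ) → ℝ} {r : ι → ℝ}
    (h : PS Om g f r) (e : κ → ι) (he : Function.Injective e) : PS Om g f (fun k => r (e k)) := by
  intro ε hε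
  obtain ⟨F, hF1, hF2, hF3⟩ := h ε hε
  refine ⟨fun k => F (e k), fun k => hF1 _, fun k => hF2 _, ?_⟩
  intro i j z hz z' hz' h0 h1
  obtain ⟨h2, h3⟩ := hF3 (e i) (e j) z hz z' hz' h0 h1
  exact ⟨he h2, h3⟩

/-- no balls -/
theorem PS.nil {ι : Type} [IsEmpty ι] {Om : Set (Fin d → ℝ)} {g f : (Fin d → ℝ) → ℝ} {r : ι → ℝ} :
    PS Om g f r := by
  intro ε hε
  exact ⟨fun i => isEmptyElim i, fun i => isEmptyElim i, fun i => isEmptyElim i,
    fun i => isEmptyElim i⟩

theorem tent_nonneg (r : ℝ) (u : Fin d → ℝ) : 0 ≤ tent r u := le_max_right _ _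

/-- placing a ball under the surface -/
theorem PS.place (HP : PlaceLemma) {k : ℕ} {Om : Set (Fin d → ℝ)}
    {g f : (Fin d → ℝ) → ℝ} {r : Fin (k + 1) → ℝ} {r' : ℝ} (hOm : Dom Om) (hf : ContinuousOn f Om)
    (hfg : ∀ u ∈ Om, f u ≤ g u) (hr : 0 < r (Fin.last k)) (hrr : r (Fin.last k) < r')
    (hΔ : ∀ u : Fin d → ℝ, (∀ a, 0 ≤ u a) → ∑ a, u a ≤ r' → u ∈ Om)
    (h : PS Om g f (fun i : Fin k => r i.castSucc)) :
    PS Om g (fun u => f u - tent r' u) r := by
  intro ε hε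
  obtain ⟨F, hF1, hF2, hF3⟩ := h (ε / 2) (by positivity)
  obtain ⟨G, hG1, hG2, hG3⟩ := HP d Om (fun u => f u - ε / 2) (r (Fin.last k)) r' hOm
    (hf.sub continuousOn_const) hr hrr hΔ
  refine ⟨Fin.lastCases (motive := fun _ => (Fin (d + 1) → ℂ) → (Fin (d + 1) → ℂ)) G F, ?_, ?_, ?_⟩
  · intro i
    refine Fin.lastCases ?_ (fun j => ?_) i
    · rw [Fin.lastCases_last]
      exact hG1
    · rw [Fin.lastCases_castSucc]
      exact hF1 j
  · intro i
    refine Fin.lastCases ?_ (fun j => ?_) i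
    · rw [Fin.lastCases_last]
      intro z hz
      obtain ⟨h1, h2, h3⟩ := hG2 z hz
      have h4 := hfg _ h1
      refine ⟨h1, ?_, ?_⟩
      · linarith
      · linarith
    · rw [Fin.lastCases_castSucc]
      intro z hz
      obtain ⟨h1, h2, h3⟩ := hF2 j z hz
      have h4 := tent_nonneg r' (uu (F j z))
      exact ⟨h1, by linarith, h3⟩
  · have hsep : ∀ (j : Fin k), ∀ z ∈ closedBall (d + 1) (r j.castSucc),
        ∀ z' ∈ closedBall (d + 1) (r (Fin.last k)), (F j z 0).re = (G z' 0).re →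
        (∀ a : Fin d, F j z a.succ = G z' a.succ) → False := by
      intro j z hz z' hz' h0 h1
      obtain ⟨h2, h3, -⟩ := hF2 j z hz
      obtain ⟨h5, -, h6⟩ := hG2 z' hz'
      have h7 : uu (F j z) = uu (G z') := by
        funext a
        unfold uu
        rw [h1 a]
      rw [h7, h0] at h3
      linarith
    intro i i'
    refine Fin.lastCases ?_ (fun j => ?_) i
    · refine Fin.lastCases ?_ (fun j' => ?_) i'
      · rw [Fin.lastCases_last]
        intro z hz z' hz' h0 h1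
        exact ⟨rfl, hG3 z hz z' hz' h0 h1⟩
      · rw [Fin.lastCases_last, Fin.lastCases_castSucc]
        intro z hz z' hz' h0 h1
        exact (hsep j' z' hz' z hz h0.symm fun a => (h1 a).symm).elim
    · refine Fin.lastCases ?_ (fun j' => ?_) i'
      · rw [Fin.lastCases_last, Fin.lastCases_castSucc]
        intro z hz z' hz' h0 h1
        exact (hsep j z hz z' hz' h0 h1).elim
      · rw [Fin.lastCases_castSucc, Fin.lastCases_castSucc]
        intro z hz z' hz' h0 h1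
        obtain ⟨h2, h3⟩ := hF3 j j' z hz z' hz' h0 h1
        exact ⟨congrArg Fin.castSucc h2, h3⟩

end

end Vale.Agent.P209.H578
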