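import Vale.Agent.P209.H578.Asm
import Vale.Agent.P209.H856.Shake4

set_option linter.all false

/-! Assembly: all balls of a list are packed between `psiL Om rs g - ε` and `g`. -/

namespace Vale.Agent.P209.H578

open scoped ContDiff
open H856 (shk shkL psi psiL DomOK AntiDir Cls State)

variable {d : ℕ} {Om : Set (Fin d → ℝ)} {B κ : ℝ}

theorem dom_of_domOK (hD : DomOK Om B κ)
    (ho : ∃ O : Set (Fin d → ℝ), IsOpen O ∧ Om = O ∩ {u | ∀ a, 0 ≤ u a}) : Dom Om where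
  nonneg := hD.nonneg
  relopen := ho
  convex := hD.conv
  down := hD.down
  bdd := ⟨B, hD.bdd⟩

theorem sta_of_cls (hD : DomOK Om B κ) {Λ M : ℝ} {f : (Fin d → ℝ) → ℝ} (hf : Cls Om Λ M f)
    (hΛ : 0 ≤ Λ) : Sta Om f where
  concave := hf.conc
  cont := hf.continuousOn hD hΛ
  slope := hf.up

theorem shkLe_shk (Om : Set (Fin d → ℝ)) (a : Fin d) (f : (Fin d → ℝ) → ℝ) :
    ShkLe Om a f (shk Om a f) := fun _ hu _ hp => H856.shk_le_of_forall hu hp

/-- shaking in a list of directions -/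
theorem PS.shkL (HS : ShakeLemma) {ι : Type} [Finite ι] (hD : DomOK Om B κ)
    (ho : ∃ O : Set (Fin d → ℝ), IsOpen O ∧ Om = O ∩ {u | ∀ a, 0 ≤ u a})
    {Λg Mg : ℝ} {g : (Fin d → ℝ) → ℝ} (hg : State Om Λg Mg g) {r : ι → ℝ}
    (l : List (Fin d)) : ∀ {Λ M : ℝ} {f : (Fin d → ℝ) → ℝ}, Cls Om Λ M f → 0 ≤ Λ →
      (∀ u ∈ Om, f u ≤ g u) → PS Om g f r → PS Om g (H856.shkL Om l f) r := by
  induction l with
  | nil =>
    intro Λ M f _ _ _ h
    exact h
  | cons a l ih =>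
    intro Λ M f hf hΛ hfg h
    have hκ := hD.kappa
    rw [H856.shkL_cons]
    refine ih (hf.shk hD hΛ a) (by positivity) ?_ ?_
    · intro u hu
      have h1 := H856.shk_mono (a := a) hD (M := Mg) hg.cls.le hfg hu
      rw [H856.shk_of_anti hD hg.cls.le (hg.anti a) hu] at h1
      exact h1
    · exact h.shake HS (dom_of_domOK hD ho) (sta_of_cls hD hf hΛ) (shkLe_shk Om a f)
        (hg.anti a) hfg

/-- one more ball -/
theorem PS.psi (HP : PlaceLemma) (HS : ShakeLemma) {k : ℕ} (hD : DomOK Om B κ)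
    (ho : ∃ O : Set (Fin d → ℝ), IsOpen O ∧ Om = O ∩ {u | ∀ a, 0 ≤ u a})
    {Λg Mg : ℝ} {g : (Fin d → ℝ) → ℝ} (hg : State Om Λg Mg g)
    {Λ M : ℝ} {f : (Fin d → ℝ) → ℝ} (hf : State Om Λ M f) (hΛ : 0 ≤ Λ)
    (hfg : ∀ u ∈ Om, f u ≤ g u) {r : Fin (k + 1) → ℝ} {r' : ℝ} (hr : 0 < r (Fin.last k))
    (hrr : r (Fin.last k) < r')
    (hΔ : ∀ u : Fin d → ℝ, (∀ a, 0 ≤ u a) → ∑ a, u a ≤ r' → u ∈ Om)
    (h : PS Om g f (fun i : Fin k => r i.castSucc)) :
    PS Om g (H856.psi Om r' f) r := by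
  have hr' : 0 ≤ r' := by linarith
  have h1 := PS.place HP (dom_of_domOK hD ho) (hf.cls.continuousOn hD hΛ) hfg hr hrr hΔ h
  refine PS.shkL HS hD ho hg (List.finRange d) (hf.sub_tent hD hr') hΛ ?_ h1
  intro u hu
  have h2 := hfg u hu
  have h3 := H856.tent_nonneg r' u
  show f u - H856.tent r' u ≤ g u
  linarith

theorem psiL_concat (rs : List ℝ) (r : ℝ) (g : (Fin d → ℝ) → ℝ) :
    psiL Om (rs.concat r) g = psi Om r (psiL Om rs g) := by
  unfold H856.psiL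
  rw [List.concat_eq_append, List.foldl_append]
  rfl

/-- **Assembly.** -/
theorem assembly (HP : PlaceLemma) (HS : ShakeLemma) (hD : DomOK Om B κ)
    (ho : ∃ O : Set (Fin d → ℝ), IsOpen O ∧ Om = O ∩ {u | ∀ a, 0 ≤ u a})
    {Λ M : ℝ} {g : (Fin d → ℝ) → ℝ} (hg : State Om Λ M g) (hΛ : 0 ≤ Λ) (k : ℕ) :
    ∀ (r r' : Fin k → ℝ), (∀ i, 0 < r i) → (∀ i, r i < r' i) →
      (∀ i, ∀ u : Fin d → ℝ, (∀ a, 0 ≤ u a) → ∑ a, u a ≤ r' i → u ∈ Om) →
      PS Om g (psiL Om (List.ofFn r') g) r := by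
  induction k with
  | zero =>
    intro r r' _ _ _
    exact PS.nil
  | succ k ih =>
    intro r r' h0 h1 h2
    have h3 := ih (fun i => r i.castSucc) (fun i => r' i.castSucc) (fun i => h0 _) (fun i => h1 _)
      (fun i => h2 _)
    have h4 : ∀ x ∈ List.ofFn fun i : Fin k => r' i.castSucc, 0 ≤ x := by
      intro x hx
      obtain ⟨i, rfl⟩ := (List.mem_ofFn' _ _).1 hx
      have := h0 i.castSucc
      have := h1 i.castSucc
      linarith
    have hκ := hD.kappa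
    rw [List.ofFn_succ', psiL_concat]
    refine PS.psi HP HS hD ho hg (hg.psiL hD _ hΛ h4) (by positivity)
      (hg.psiL_le hD _ hΛ h4) (h0 _) (h1 _) (h2 _) h3

end Vale.Agent.P209.H578
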