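import Vale.Agent.P209.H578.Defs

set_option linter.all false

/-! The suspension lemma. -/

namespace Vale.Agent.P209.H578

open scoped ContDiff
open Complex

/-- the action coordinates `(p, u)` -/
noncomputable def qq {d : ℕ} (w : Fin (d + 1) → ℂ) : ℝ × (Fin d → ℝ) := ((w 0).re, uu w)

/-- partial derivative in `p` -/
noncomputable def dP {d : ℕ} (D : ℝ × (Fin d → ℝ) → ℝ) (q : ℝ × (Fin d → ℝ)) : ℝ :=
  fderiv ℝ D q (1, 0)

/-- partial derivative in `u b` -/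
noncomputable def dU {d : ℕ} (D : ℝ × (Fin d → ℝ) → ℝ) (b : Fin d) (q : ℝ × (Fin d → ℝ)) : ℝ :=
  fderiv ℝ D q (0, Pi.single b 1)

/-- the suspension of the family `Ψ` (with generating function `h`) in slot `a` along `D` -/
noncomputable def susp {d : ℕ} (a : Fin d) (Ψ : ℝ × ℂ → ℂ) (h : ℝ × ℂ → ℝ)
    (D : ℝ × (Fin d → ℝ) → ℝ) (w : Fin (d + 1) → ℂ) : Fin (d + 1) → ℂ :=
  Fin.cons (w 0 - ((h (D (qq w), w a.succ) * dP D (qq w) : ℝ) : ℂ) * I) fun b =>
    if b = a then Ψ (D (qq w), w a.succ)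
    else exp (((-(2 * Real.pi * (h (D (qq w), w a.succ) * dU D b (qq w))) : ℝ) : ℂ) * I) * w b.succ

/-- the derivative of `qq` -/
noncomputable def qL {d : ℕ} (w : Fin (d + 1) → ℂ) : (Fin (d + 1) → ℂ) →L[ℝ] ℝ × (Fin d → ℝ) :=
  (reCLM.comp (ContinuousLinearMap.proj 0)).prod (ContinuousLinearMap.pi fun b =>
    (2 * Real.pi) • ((w b.succ).re • reCLM.comp (ContinuousLinearMap.proj b.succ) +
      (w b.succ).im • imCLM.comp (ContinuousLinearMap.proj b.succ)))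

theorem qL_fst {d : ℕ} (w v : Fin (d + 1) → ℂ) : (qL w v).1 = (v 0).re := rfl

theorem qL_snd {d : ℕ} (w v : Fin (d + 1) → ℂ) (b : Fin d) : (qL w v).2 b =
    2 * Real.pi * ((w b.succ).re * (v b.succ).re + (w b.succ).im * (v b.succ).im) := rfl

theorem uu_eq {d : ℕ} (w : Fin (d + 1) → ℂ) (b : Fin d) :
    uu w b = Real.pi * ((w b.succ).re * (w b.succ).re + (w b.succ).im * (w b.succ).im) := by
  unfold uu
  rw [← Complex.normSq_eq_norm_sq, Complex.normSq_apply]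

theorem qq_hasFDerivAt {d : ℕ} (w : Fin (d + 1) → ℂ) : HasFDerivAt qq (qL w) w := by
  have hp : ∀ j : Fin (d + 1), HasFDerivAt (fun w : Fin (d + 1) → ℂ => w j)
      (ContinuousLinearMap.proj (R := ℝ) (φ := fun _ : Fin (d + 1) => ℂ) j) w :=
    fun j => (ContinuousLinearMap.proj (R := ℝ) (φ := fun _ : Fin (d + 1) => ℂ) j).hasFDerivAt
  have hr : ∀ j : Fin (d + 1), HasFDerivAt (fun w : Fin (d + 1) → ℂ => (w j).re)
      (reCLM.comp (ContinuousLinearMap.proj (R := ℝ) (φ := fun _ : Fin (d + 1) => ℂ) j)) w :=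
    fun j => reCLM.hasFDerivAt.comp w (hp j)
  have hi : ∀ j : Fin (d + 1), HasFDerivAt (fun w : Fin (d + 1) → ℂ => (w j).im)
      (imCLM.comp (ContinuousLinearMap.proj (R := ℝ) (φ := fun _ : Fin (d + 1) => ℂ) j)) w :=
    fun j => imCLM.hasFDerivAt.comp w (hp j)
  refine HasFDerivAt.prodMk (hr 0) ?_
  rw [hasFDerivAt_pi]
  intro b
  have h1 := (((hr b.succ).mul (hr b.succ)).add ((hi b.succ).mul (hi b.succ))).const_mul Real.pi
  have h2 : (fun w : Fin (d + 1) → ℂ => uu w b) = fun w =>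
      Real.pi * ((w b.succ).re * (w b.succ).re + (w b.succ).im * (w b.succ).im) := by
    funext w
    exact uu_eq w b
  rw [h2]
  refine h1.congr_fderiv ?_
  ext v
  simp only [ContinuousLinearMap.smul_apply, ContinuousLinearMap.add_apply,
    ContinuousLinearMap.comp_apply, ContinuousLinearMap.proj_apply, reCLM_apply, imCLM_apply,
    smul_eq_mul]
  ring

theorem qq_contDiff {d : ℕ} : ContDiff ℝ ∞ (qq (d := d)) := by
  have hp : ∀ j : Fin (d + 1), ContDiff ℝ ∞ (fun w : Fin (d + 1) → ℂ => w j) :=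
    fun j => contDiff_apply ℝ ℂ j
  refine ContDiff.prodMk (reCLM.contDiff.comp (hp 0)) ?_
  rw [contDiff_pi]
  intro b
  have h2 : (fun w : Fin (d + 1) → ℂ => uu w b) = fun w =>
      Real.pi * ((w b.succ).re * (w b.succ).re + (w b.succ).im * (w b.succ).im) := by
    funext w
    exact uu_eq w b
  rw [h2]
  have hr := reCLM.contDiff.comp (hp b.succ)
  have hi := imCLM.contDiff.comp (hp b.succ)
  exact contDiff_const.mul ((hr.mul hr).add (hi.mul hi))

/-- expansion of a linear functional on `ℝ × ℝ^d` -/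
theorem lin_expand {d : ℕ} (T : ℝ × (Fin d → ℝ) →L[ℝ] ℝ) (q : ℝ × (Fin d → ℝ)) :
    T q = q.1 * T (1, 0) + ∑ b, q.2 b * T (0, Pi.single b 1) := by
  have h1 : q = q.1 • ((1 : ℝ), (0 : Fin d → ℝ)) + ∑ b, q.2 b • ((0 : ℝ), (Pi.single b 1 : Fin d → ℝ)) := by
    refine Prod.ext ?_ ?_
    · simp [Prod.fst_sum]
    · rw [Prod.snd_add, Prod.snd_sum]
      simp only [Prod.smul_snd, smul_zero, zero_add]
      exact (pi_eq_sum_univ' q.2)
  conv_lhs => rw [h1]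
  rw [map_add, map_smul, map_sum, smul_eq_mul]
  congr 1
  refine Finset.sum_congr rfl fun b _ => ?_
  rw [map_smul, smul_eq_mul]


/-- slot `0`: shift of the angle -/
theorem slot0 (x y : ℂ) (k l : ℝ) :
    om1 (x - ((k : ℝ) : ℂ) * I) (y - ((l : ℝ) : ℂ) * I) = om1 x y - (x.re * l - y.re * k) := by
  unfold om1
  simp
  ring

/-- slot `b`: rotation -/
theorem slotb (e z x y : ℂ) (he : ‖e‖ = 1) (k l : ℝ) :
    om1 (e * x + e * (((-(2 * Real.pi * k) : ℝ) : ℂ) * I) * z)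
      (e * y + e * (((-(2 * Real.pi * l) : ℝ) : ℂ) * I) * z) =
    om1 x y - ((2 * Real.pi * (z.re * x.re + z.im * x.im)) * l -
      (2 * Real.pi * (z.re * y.re + z.im * y.im)) * k) := by
  have h1 : ∀ p q : ℂ, om1 (e * p) (e * q) = om1 p q := by
    intro p q
    rw [om1_rot, Complex.normSq_eq_norm_sq, he]
    ring
  have h2 : ∀ (p : ℂ) (t : ℝ), e * p + e * (((-(2 * Real.pi * t) : ℝ) : ℂ) * I) * z =
      e * (p + (((-(2 * Real.pi * t) : ℝ) : ℂ) * I) * z) := by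
    intro p t
    ring
  rw [h2, h2, h1]
  unfold om1
  simp
  ring

/-- slot `a` -/
theorem slota (X Y Z : ℂ) (β s t : ℝ) (h : om1 Y Z = β) :
    om1 ((s : ℂ) * X + Y) ((t : ℂ) * X + Z) = β + s * om1 X Z - t * om1 X Y := by
  rw [← h]
  unfold om1
  simp
  ring

section
variable {d : ℕ} {a : Fin d} {Ψ : ℝ × ℂ → ℂ} {h : ℝ × ℂ → ℝ} {D : ℝ × (Fin d → ℝ) → ℝ} {A : ℝ}

theorem dsc_isOpen (A : ℝ) : IsOpen (dsc A) := by
  unfold dsc
  exact isOpen_lt (by fun_prop) continuous_const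

theorem udsc_isOpen (A : ℝ) : IsOpen ((Set.univ : Set ℝ) ×ˢ dsc A) := isOpen_univ.prod (dsc_isOpen A)

/-- the domain of the suspension -/
def sV (a : Fin d) (A : ℝ) : Set (Fin (d + 1) → ℂ) := {w | w a.succ ∈ dsc A}

theorem sV_isOpen (a : Fin d) (A : ℝ) : IsOpen (sV a A) :=
  (dsc_isOpen A).preimage (continuous_apply a.succ)

/-- splitting of the derivative of a function on `ℝ × ℂ` -/
theorem split_fderiv {E : Type} [NormedAddCommGroup E] [NormedSpace ℝ E] {Φ : ℝ × ℂ → E}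
    (hΦ : ContDiffOn ℝ ∞ Φ (Set.univ ×ˢ dsc A)) {s : ℝ} {z : ℂ} (hz : z ∈ dsc A) (σ : ℝ) (v : ℂ) :
    fderiv ℝ Φ (s, z) (σ, v) = σ • deriv (fun t => Φ (t, z)) s + fderiv ℝ (fun z => Φ (s, z)) z v := by
  have h1 : HasFDerivAt Φ (fderiv ℝ Φ (s, z)) (s, z) :=
    ((hΦ.contDiffAt ((udsc_isOpen A).mem_nhds ⟨Set.mem_univ _, hz⟩)).differentiableAt
      (by simp)).hasFDerivAt
  have h2 : HasDerivAt (fun t => Φ (t, z)) (fderiv ℝ Φ (s, z) (1, 0)) s := by
    have h3 : HasDerivAt (fun t : ℝ => (t, z)) ((1 : ℝ), (0 : ℂ)) s :=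
      (hasDerivAt_id s).prodMk (hasDerivAt_const s z)
    exact h1.comp_hasDerivAt s h3
  have h4 : HasFDerivAt (fun z => Φ (s, z)) ((fderiv ℝ Φ (s, z)).comp
      (ContinuousLinearMap.inr ℝ ℝ ℂ)) z := by
    have h5 : HasFDerivAt (fun z : ℂ => (s, z)) (ContinuousLinearMap.inr ℝ ℝ ℂ) z :=
      (hasFDerivAt_const s z).prodMk (hasFDerivAt_id z)
    exact HasFDerivAt.comp (g := Φ) z h1 h5
  rw [h2.deriv, h4.fderiv]
  have h6 : ((σ, v) : ℝ × ℂ) = σ • ((1 : ℝ), (0 : ℂ)) + ((0 : ℝ), v) := by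
    simp
  rw [h6, map_add, map_smul]
  rfl


/-- the derivative of `w ↦ D (qq w)` -/
noncomputable def dD (D : ℝ × (Fin d → ℝ) → ℝ) (w : Fin (d + 1) → ℂ) : (Fin (d + 1) → ℂ) →L[ℝ] ℝ :=
  (fderiv ℝ D (qq w)).comp (qL w)

theorem D_hasFDerivAt (hD : ContDiff ℝ ∞ D) (w : Fin (d + 1) → ℂ) :
    HasFDerivAt (fun w => D (qq w)) (dD D w) w :=
  HasFDerivAt.comp (g := D) w (hD.contDiffAt.differentiableAt (by simp)).hasFDerivAt
    (qq_hasFDerivAt w)

theorem G_hasFDerivAt (hD : ContDiff ℝ ∞ D) (w : Fin (d + 1) → ℂ) :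
    HasFDerivAt (fun w => (D (qq w), w a.succ))
      ((dD D w).prod (ContinuousLinearMap.proj (R := ℝ) (φ := fun _ : Fin (d + 1) => ℂ) a.succ)) w :=
  (D_hasFDerivAt hD w).prodMk
    (ContinuousLinearMap.proj (R := ℝ) (φ := fun _ : Fin (d + 1) => ℂ) a.succ).hasFDerivAt

theorem Phi_hasFDerivAt {E : Type} [NormedAddCommGroup E] [NormedSpace ℝ E] {Φ : ℝ × ℂ → E}
    (hΦ : ContDiffOn ℝ ∞ Φ (Set.univ ×ˢ dsc A)) (hD : ContDiff ℝ ∞ D) {w : Fin (d + 1) → ℂ}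
    (hw : w ∈ sV a A) :
    HasFDerivAt (fun w => Φ (D (qq w), w a.succ)) ((fderiv ℝ Φ (D (qq w), w a.succ)).comp
      ((dD D w).prod (ContinuousLinearMap.proj (R := ℝ) (φ := fun _ : Fin (d + 1) => ℂ) a.succ))) w :=
  have hm : (D (qq w), w a.succ) ∈ (Set.univ : Set ℝ) ×ˢ dsc A := ⟨Set.mem_univ _, hw⟩
  HasFDerivAt.comp (g := Φ) w
    (((hΦ.contDiffAt ((udsc_isOpen A).mem_nhds hm)).differentiableAt
      (by simp)).hasFDerivAt) (G_hasFDerivAt hD w)

theorem Phi_contDiffOn {E : Type} [NormedAddCommGroup E] [NormedSpace ℝ E] {Φ : ℝ × ℂ → E}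
    (hΦ : ContDiffOn ℝ ∞ Φ (Set.univ ×ˢ dsc A)) (hD : ContDiff ℝ ∞ D) :
    ContDiffOn ℝ ∞ (fun w : Fin (d + 1) → ℂ => Φ (D (qq w), w a.succ)) (sV a A) := by
  refine hΦ.comp ?_ ?_
  · exact ((hD.comp qq_contDiff).prodMk (contDiff_apply ℝ ℂ a.succ)).contDiffOn
  · intro w hw
    exact ⟨Set.mem_univ _, hw⟩

theorem Dj_contDiff (hD : ContDiff ℝ ∞ D) (e : ℝ × (Fin d → ℝ)) :
    ContDiff ℝ ∞ (fun q => fderiv ℝ D q e) :=
  (hD.fderiv_right (m := ∞) (by simp)).clm_apply contDiff_const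

/-- the derivative of the generating function -/
noncomputable def dH (a : Fin d) (h : ℝ × ℂ → ℝ) (D : ℝ × (Fin d → ℝ) → ℝ)
    (w : Fin (d + 1) → ℂ) : (Fin (d + 1) → ℂ) →L[ℝ] ℝ :=
  (fderiv ℝ h (D (qq w), w a.succ)).comp
      ((dD D w).prod (ContinuousLinearMap.proj (R := ℝ) (φ := fun _ : Fin (d + 1) => ℂ) a.succ))

theorem dH_apply (hh : ContDiffOn ℝ ∞ h (Set.univ ×ˢ dsc A)) {w : Fin (d + 1) → ℂ}
    (hw : w ∈ sV a A) (v : Fin (d + 1) → ℂ) :
    dH a h D w v = dD D w v * deriv (fun t => h (t, w a.succ)) (D (qq w)) +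
      fderiv ℝ (fun z => h (D (qq w), z)) (w a.succ) (v a.succ) :=
  split_fderiv hh hw _ _

/-- the derivative of `h * D_e` -/
noncomputable def kL (a : Fin d) (h : ℝ × ℂ → ℝ) (D : ℝ × (Fin d → ℝ) → ℝ) (e : ℝ × (Fin d → ℝ))
    (w : Fin (d + 1) → ℂ) : (Fin (d + 1) → ℂ) →L[ℝ] ℝ :=
  h (D (qq w), w a.succ) • ((fderiv ℝ (fun q => fderiv ℝ D q e) (qq w)).comp (qL w)) +
    fderiv ℝ D (qq w) e • dH a h D w

theorem k_hasFDerivAt (hh : ContDiffOn ℝ ∞ h (Set.univ ×ˢ dsc A)) (hD : ContDiff ℝ ∞ D)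
    {w : Fin (d + 1) → ℂ} (hw : w ∈ sV a A) (e : ℝ × (Fin d → ℝ)) :
    HasFDerivAt (fun w => h (D (qq w), w a.succ) * fderiv ℝ D (qq w) e) (kL a h D e w) w := by
  have h1 : HasFDerivAt (fun w => fderiv ℝ D (qq w) e)
      ((fderiv ℝ (fun q => fderiv ℝ D q e) (qq w)).comp (qL w)) w :=
    HasFDerivAt.comp (g := fun q => fderiv ℝ D q e) w
      ((Dj_contDiff hD e).contDiffAt.differentiableAt (by simp)).hasFDerivAt (qq_hasFDerivAt w)
  exact (Phi_hasFDerivAt hh hD hw).mul h1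

theorem dj_apply (hD : ContDiff ℝ ∞ D) (q x e : ℝ × (Fin d → ℝ)) :
    fderiv ℝ (fun q => fderiv ℝ D q e) q x = fderiv ℝ (fderiv ℝ D) q x e := by
  have h1 : HasFDerivAt (fderiv ℝ D) (fderiv ℝ (fderiv ℝ D) q) q :=
    ((hD.fderiv_right (m := ∞) (by simp)).contDiffAt.differentiableAt (by simp)).hasFDerivAt
  have h2 := h1.clm_apply (hasFDerivAt_const e q)
  rw [h2.fderiv]
  simp

theorem hess_symm (hD : ContDiff ℝ ∞ D) (q x y : ℝ × (Fin d → ℝ)) :
    fderiv ℝ (fderiv ℝ D) q x y = fderiv ℝ (fderiv ℝ D) q y x := by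
  have h1 : IsSymmSndFDerivAt ℝ D q := hD.contDiffAt.isSymmSndFDerivAt (by
    rw [minSmoothness_of_isRCLikeNormedField]
    exact WithTop.coe_le_coe.2 le_top)
  exact h1 x y

theorem kL_apply (hD : ContDiff ℝ ∞ D) (e : ℝ × (Fin d → ℝ)) (w v : Fin (d + 1) → ℂ) :
    kL a h D e w v = h (D (qq w), w a.succ) * fderiv ℝ (fderiv ℝ D) (qq w) (qL w v) e +
      fderiv ℝ D (qq w) e * dH a h D w v := by
  unfold kL
  simp only [ContinuousLinearMap.add_apply, ContinuousLinearMap.smul_apply,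
    ContinuousLinearMap.comp_apply, smul_eq_mul, dj_apply hD]

/-- the key identity -/
theorem key_sum (hD : ContDiff ℝ ∞ D) (w x y : Fin (d + 1) → ℂ) :
    (x 0).re * kL a h D (1, 0) w y + ∑ b, (qL w x).2 b * kL a h D (0, Pi.single b 1) w y =
      h (D (qq w), w a.succ) * fderiv ℝ (fderiv ℝ D) (qq w) (qL w y) (qL w x) +
        dD D w x * dH a h D w y := by
  have h1 := lin_expand (fderiv ℝ (fderiv ℝ D) (qq w) (qL w y)) (qL w x)
  have h2 := lin_expand (fderiv ℝ D (qq w)) (qL w x)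
  have h3 : dD D w x = fderiv ℝ D (qq w) (qL w x) := rfl
  rw [h1, h3, h2, qL_fst]
  simp only [kL_apply hD]
  have h4 : ∑ b, (qL w x).2 b * (h (D (qq w), w a.succ) *
      fderiv ℝ (fderiv ℝ D) (qq w) (qL w y) (0, Pi.single b 1) +
        fderiv ℝ D (qq w) (0, Pi.single b 1) * dH a h D w y) =
      ∑ b, h (D (qq w), w a.succ) * ((qL w x).2 b *
        fderiv ℝ (fderiv ℝ D) (qq w) (qL w y) (0, Pi.single b 1)) +
      ∑ b, (qL w x).2 b * fderiv ℝ D (qq w) (0, Pi.single b 1) * dH a h D w y := by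
    rw [← Finset.sum_add_distrib]
    refine Finset.sum_congr rfl fun b _ => ?_
    ring
  rw [h4, ← Finset.mul_sum, ← Finset.sum_mul]
  ring


theorem susp_zero (w : Fin (d + 1) → ℂ) : susp a Ψ h D w 0 =
    w 0 - ((h (D (qq w), w a.succ) * fderiv ℝ D (qq w) (1, 0) : ℝ) : ℂ) * I := rfl

theorem susp_self (w : Fin (d + 1) → ℂ) : susp a Ψ h D w a.succ = Ψ (D (qq w), w a.succ) := by
  unfold susp
  rw [Fin.cons_succ, if_pos rfl]

theorem susp_ne (w : Fin (d + 1) → ℂ) {b : Fin d} (hb : b ≠ a) : susp a Ψ h D w b.succ =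
    exp (((-(2 * Real.pi * (h (D (qq w), w a.succ) * fderiv ℝ D (qq w) (0, Pi.single b 1))) : ℝ)
      : ℂ) * I) * w b.succ := by
  unfold susp
  rw [Fin.cons_succ, if_neg hb]
  rfl

theorem k_contDiffOn (hh : ContDiffOn ℝ ∞ h (Set.univ ×ˢ dsc A)) (hD : ContDiff ℝ ∞ D)
    (e : ℝ × (Fin d → ℝ)) :
    ContDiffOn ℝ ∞ (fun w : Fin (d + 1) → ℂ => h (D (qq w), w a.succ) * fderiv ℝ D (qq w) e)
      (sV a A) :=
  (Phi_contDiffOn hh hD).mul ((Dj_contDiff hD e).comp qq_contDiff).contDiffOn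

theorem susp_contDiffOn (hΨ : ContDiffOn ℝ ∞ Ψ (Set.univ ×ˢ dsc A))
    (hh : ContDiffOn ℝ ∞ h (Set.univ ×ˢ dsc A)) (hD : ContDiff ℝ ∞ D) :
    ContDiffOn ℝ ∞ (susp a Ψ h D) (sV a A) := by
  rw [contDiffOn_pi]
  intro j
  refine Fin.cases ?_ (fun b => ?_) j
  · have h1 := ofRealCLM.contDiff.comp_contDiffOn (k_contDiffOn (a := a) hh hD (1, 0))
    have h2 := (contDiff_apply ℝ ℂ (0 : Fin (d + 1))).contDiffOn (s := sV a A) (n := ∞)
    exact h2.sub (h1.mul contDiffOn_const)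
  · by_cases hb : b = a
    · subst hb
      have h1 : (fun w => susp b Ψ h D w b.succ) = fun w => Ψ (D (qq w), w b.succ) := by
        funext w
        exact susp_self w
      rw [h1]
      exact Phi_contDiffOn hΨ hD
    · have h1 : (fun w => susp a Ψ h D w b.succ) = fun w =>
          exp (((-(2 * Real.pi * (h (D (qq w), w a.succ) *
            fderiv ℝ D (qq w) (0, Pi.single b 1))) : ℝ) : ℂ) * I) * w b.succ := by
        funext w
        exact susp_ne w hb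
      rw [h1]
      have h2 := (contDiff_apply ℝ ℂ (b.succ : Fin (d + 1))).contDiffOn (s := sV a A) (n := ∞)
      have h3 := ofRealCLM.contDiff.comp_contDiffOn
        ((contDiffOn_const (c := 2 * Real.pi)).mul (k_contDiffOn (a := a) hh hD (0, Pi.single b 1))).neg
      exact ((h3.mul contDiffOn_const).cexp).mul h2

theorem fderiv_comp_apply {F : (Fin (d + 1) → ℂ) → (Fin (d + 1) → ℂ)} {w : Fin (d + 1) → ℂ}
    (hF : DifferentiableAt ℝ F w) {j : Fin (d + 1)} {L : (Fin (d + 1) → ℂ) →L[ℝ] ℂ}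
    (hL : HasFDerivAt (fun w => F w j) L w) (v : Fin (d + 1) → ℂ) : fderiv ℝ F w v j = L v := by
  have h1 := (hasFDerivAt_pi'.1 hF.hasFDerivAt) j
  have h2 := h1.unique hL
  rw [← h2]
  rfl


theorem susp_differentiableAt (hΨ : ContDiffOn ℝ ∞ Ψ (Set.univ ×ˢ dsc A))
    (hh : ContDiffOn ℝ ∞ h (Set.univ ×ˢ dsc A)) (hD : ContDiff ℝ ∞ D) {w : Fin (d + 1) → ℂ}
    (hw : w ∈ sV a A) : DifferentiableAt ℝ (susp a Ψ h D) w :=
  ((susp_contDiffOn hΨ hh hD).contDiffAt ((sV_isOpen a A).mem_nhds hw)).differentiableAt (by simp)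

theorem susp_d0 (hΨ : ContDiffOn ℝ ∞ Ψ (Set.univ ×ˢ dsc A))
    (hh : ContDiffOn ℝ ∞ h (Set.univ ×ˢ dsc A)) (hD : ContDiff ℝ ∞ D) {w : Fin (d + 1) → ℂ}
    (hw : w ∈ sV a A) (v : Fin (d + 1) → ℂ) : fderiv ℝ (susp a Ψ h D) w v 0 =
      v 0 - ((kL a h D (1, 0) w v : ℝ) : ℂ) * I := by
  have h1 := ofRealCLM.hasFDerivAt.comp w (k_hasFDerivAt (a := a) hh hD hw (1, 0))
  have h2 := (ContinuousLinearMap.proj (R := ℝ) (φ := fun _ : Fin (d + 1) => ℂ) 0).hasFDerivAt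
    (x := w)
  have h3 := h2.sub (h1.mul_const I)
  rw [fderiv_comp_apply (susp_differentiableAt hΨ hh hD hw) (j := 0) (L := _) h3]
  simp [mul_comm]

theorem susp_da (hΨ : ContDiffOn ℝ ∞ Ψ (Set.univ ×ˢ dsc A))
    (hh : ContDiffOn ℝ ∞ h (Set.univ ×ˢ dsc A)) (hD : ContDiff ℝ ∞ D) {w : Fin (d + 1) → ℂ}
    (hw : w ∈ sV a A) (v : Fin (d + 1) → ℂ) : fderiv ℝ (susp a Ψ h D) w v a.succ =
      ((dD D w v : ℝ) : ℂ) * deriv (fun t => Ψ (t, w a.succ)) (D (qq w)) +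
        fderiv ℝ (fun z => Ψ (D (qq w), z)) (w a.succ) (v a.succ) := by
  have h1 := Phi_hasFDerivAt (a := a) hΨ hD hw
  have h2 : (fun w => susp a Ψ h D w a.succ) = fun w => Ψ (D (qq w), w a.succ) := by
    funext w
    exact susp_self w
  rw [← h2] at h1
  rw [fderiv_comp_apply (susp_differentiableAt hΨ hh hD hw) (j := a.succ) (L := _) h1]
  have h3 := split_fderiv hΨ (s := D (qq w)) hw (dD D w v) (v a.succ)
  rw [Complex.real_smul] at h3
  exact h3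

theorem susp_db (hΨ : ContDiffOn ℝ ∞ Ψ (Set.univ ×ˢ dsc A))
    (hh : ContDiffOn ℝ ∞ h (Set.univ ×ˢ dsc A)) (hD : ContDiff ℝ ∞ D) {w : Fin (d + 1) → ℂ}
    (hw : w ∈ sV a A) {b : Fin d} (hb : b ≠ a) (v : Fin (d + 1) → ℂ) :
    ∃ e : ℂ, ‖e‖ = 1 ∧ fderiv ℝ (susp a Ψ h D) w v b.succ =
      e * v b.succ + e * (((-(2 * Real.pi * kL a h D (0, Pi.single b 1) w v) : ℝ) : ℂ) * I) *
        w b.succ ∧ e = exp (((-(2 * Real.pi * (h (D (qq w), w a.succ) *
          fderiv ℝ D (qq w) (0, Pi.single b 1))) : ℝ) : ℂ) * I) := by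
  refine ⟨_, ?_, ?_, rfl⟩
  · rw [Complex.norm_exp_ofReal_mul_I]
  · have h1 : HasFDerivAt (fun w => (((-(2 * Real.pi * (h (D (qq w), w a.succ) *
        fderiv ℝ D (qq w) (0, Pi.single b 1))) : ℝ) : ℂ) * I)) _ w :=
      (ofRealCLM.hasFDerivAt.comp w
        ((k_hasFDerivAt (a := a) hh hD hw (0, Pi.single b 1)).const_mul (2 * Real.pi)).neg).mul_const I
    have h2 := (ContinuousLinearMap.proj (R := ℝ) (φ := fun _ : Fin (d + 1) => ℂ) b.succ).hasFDerivAt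
      (x := w)
    have h3 := h1.cexp.mul h2
    have h4 : (fun w => susp a Ψ h D w b.succ) = fun w =>
          exp (((-(2 * Real.pi * (h (D (qq w), w a.succ) *
            fderiv ℝ D (qq w) (0, Pi.single b 1))) : ℝ) : ℂ) * I) * w b.succ := by
      funext w
      exact susp_ne w hb
    have h5 := fderiv_comp_apply (susp_differentiableAt (a := a) hΨ hh hD hw) (j := b.succ)
      (L := _) (by rw [h4]; exact h3) v
    rw [h5]
    simp
    ring


theorem kL_self (hD : ContDiff ℝ ∞ D) (hDa : ∀ q, fderiv ℝ D q (0, Pi.single a 1) = 0)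
    (w v : Fin (d + 1) → ℂ) : kL a h D (0, Pi.single a 1) w v = 0 := by
  rw [kL_apply hD, ← dj_apply hD]
  have h1 : (fun q => fderiv ℝ D q (0, Pi.single a 1)) = fun _ => (0 : ℝ) := by
    funext q
    exact hDa q
  rw [h1, hDa]
  simp

theorem susp_sympl (hΨ : ContDiffOn ℝ ∞ Ψ (Set.univ ×ˢ dsc A))
    (hh : ContDiffOn ℝ ∞ h (Set.univ ×ˢ dsc A)) (hD : ContDiff ℝ ∞ D)
    (hDa : ∀ q, fderiv ℝ D q (0, Pi.single a 1) = 0)
    (hs : ∀ s, ∀ z ∈ dsc A, ∀ v w, om1 (fderiv ℝ (fun z => Ψ (s, z)) z v)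
      (fderiv ℝ (fun z => Ψ (s, z)) z w) = om1 v w)
    (hg : ∀ s, ∀ z ∈ dsc A, ∀ v, fderiv ℝ (fun z => h (s, z)) z v =
      om1 (deriv (fun t => Ψ (t, z)) s) (fderiv ℝ (fun z => Ψ (s, z)) z v))
    {w : Fin (d + 1) → ℂ} (hw : w ∈ sV a A) (v v' : Fin (d + 1) → ℂ) :
    omega (fderiv ℝ (susp a Ψ h D) w v) (fderiv ℝ (susp a Ψ h D) w v') = omega v v' := by
  have hom : ∀ x y : Fin (d + 1) → ℂ, omega x y = om1 (x 0) (y 0) +
      ∑ b : Fin d, om1 (x b.succ) (y b.succ) := by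
    intro x y
    unfold omega
    rw [Fin.sum_univ_succ]
    rfl
  rw [hom, hom]
  have h0 : om1 (fderiv ℝ (susp a Ψ h D) w v 0) (fderiv ℝ (susp a Ψ h D) w v' 0) =
      om1 (v 0) (v' 0) - ((v 0).re * kL a h D (1, 0) w v' - (v' 0).re * kL a h D (1, 0) w v) := by
    rw [susp_d0 hΨ hh hD hw, susp_d0 hΨ hh hD hw, slot0]
  have hb : ∀ b : Fin d, om1 (fderiv ℝ (susp a Ψ h D) w v b.succ)
      (fderiv ℝ (susp a Ψ h D) w v' b.succ) = om1 (v b.succ) (v' b.succ) -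
      ((qL w v).2 b * kL a h D (0, Pi.single b 1) w v' -
        (qL w v').2 b * kL a h D (0, Pi.single b 1) w v) +
      (if b = a then dD D w v * dH a h D w v' - dD D w v' * dH a h D w v else 0) := by
    intro b
    by_cases hba : b = a
    · subst hba
      rw [if_pos rfl, kL_self hD hDa, kL_self hD hDa, susp_da hΨ hh hD hw, susp_da hΨ hh hD hw,
        slota _ _ _ _ _ _ (hs _ _ hw _ _), dH_apply hh hw, dH_apply hh hw, hg _ _ hw, hg _ _ hw]
      ring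
    · rw [if_neg hba]
      obtain ⟨e, he, h1, h2⟩ := susp_db hΨ hh hD hw hba v
      obtain ⟨e', -, h3, h4⟩ := susp_db hΨ hh hD hw hba v'
      rw [h1, h3, h4, ← h2, slotb _ _ _ _ he, qL_snd, qL_snd]
      ring
  rw [h0, Finset.sum_congr rfl fun b _ => hb b, Finset.sum_add_distrib, Finset.sum_sub_distrib,
    Finset.sum_ite_eq' Finset.univ a, if_pos (Finset.mem_univ a), Finset.sum_sub_distrib]
  have k1 := key_sum (a := a) (h := h) hD w v v'
  have k2 := key_sum (a := a) (h := h) hD w v' v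
  have k3 := hess_symm hD (qq w) (qL w v) (qL w v')
  rw [k3] at k2
  linear_combination -k1 + k2


theorem fderiv_dir_zero (hD : ContDiff ℝ ∞ D)
    (hDu : ∀ p u y, D (p, Function.update u a y) = D (p, u)) (q : ℝ × (Fin d → ℝ)) :
    fderiv ℝ D q (0, Pi.single a 1) = 0 := by
  have h1 : HasFDerivAt D (fderiv ℝ D q) q := (hD.contDiffAt.differentiableAt (by simp)).hasFDerivAt
  have h2 : HasDerivAt (fun t : ℝ => q + t • ((0 : ℝ), (Pi.single a 1 : Fin d → ℝ)))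
      ((0 : ℝ), (Pi.single a 1 : Fin d → ℝ)) 0 := by
    have := ((hasDerivAt_id (0 : ℝ)).smul_const ((0 : ℝ), (Pi.single a 1 : Fin d → ℝ))).const_add q
    simpa using this
  have h3 : HasDerivAt (fun t : ℝ => D (q + t • ((0 : ℝ), (Pi.single a 1 : Fin d → ℝ))))
      (fderiv ℝ D q (0, Pi.single a 1)) 0 := by
    have h1' : HasFDerivAt D (fderiv ℝ D q) (q + (0 : ℝ) • ((0 : ℝ), (Pi.single a 1 : Fin d → ℝ))) := by
      simpa using h1
    exact h1'.comp_hasDerivAt (0 : ℝ) h2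
  have h4 : (fun t : ℝ => D (q + t • ((0 : ℝ), (Pi.single a 1 : Fin d → ℝ)))) = fun _ => D q := by
    funext t
    have h5 : q + t • ((0 : ℝ), (Pi.single a 1 : Fin d → ℝ)) =
        (q.1, Function.update q.2 a (q.2 a + t)) := by
      refine Prod.ext (by simp) ?_
      funext b
      by_cases hb : b = a
      · subst hb
        simp
      · simp [hb]
    rw [h5, hDu]
  rw [h4] at h3
  exact h3.unique (hasDerivAt_const 0 (D q))

theorem uu_susp_self (w : Fin (d + 1) → ℂ) :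
    uu (susp a Ψ h D w) a = Real.pi * ‖Ψ (D (qq w), w a.succ)‖ ^ 2 := by
  unfold uu
  rw [susp_self]

theorem norm_susp_ne (w : Fin (d + 1) → ℂ) {b : Fin d} (hb : b ≠ a) :
    ‖susp a Ψ h D w b.succ‖ = ‖w b.succ‖ := by
  rw [susp_ne w hb, norm_mul, Complex.norm_exp_ofReal_mul_I, one_mul]

theorem uu_susp_ne (w : Fin (d + 1) → ℂ) {b : Fin d} (hb : b ≠ a) :
    uu (susp a Ψ h D w) b = uu w b := by
  unfold uu
  rw [norm_susp_ne w hb]

theorem re_susp_zero (w : Fin (d + 1) → ℂ) : (susp a Ψ h D w 0).re = (w 0).re := by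
  rw [susp_zero]
  simp

theorem im_susp_zero (w : Fin (d + 1) → ℂ) : (susp a Ψ h D w 0).im =
    (w 0).im - h (D (qq w), w a.succ) * fderiv ℝ D (qq w) (1, 0) := by
  rw [susp_zero]
  simp

/-- the suspension is the identity where `D ≤ 0` -/
theorem susp_of_nonpos (h0 : ∀ s ≤ 0, ∀ z ∈ dsc A, Ψ (s, z) = z ∧ h (s, z) = 0)
    {w : Fin (d + 1) → ℂ} (hw : w ∈ sV a A) (hD0 : D (qq w) ≤ 0) : susp a Ψ h D w = w := by
  obtain ⟨h1, h2⟩ := h0 _ hD0 _ hw
  funext j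
  refine Fin.cases ?_ (fun b => ?_) j
  · rw [susp_zero, h2]
    simp
  · by_cases hb : b = a
    · subst hb
      rw [susp_self, h1]
    · rw [susp_ne w hb, h2]
      simp

/-- `(p, u)` outside slot `a` -/
theorem D_congr (hDu : ∀ p u y, D (p, Function.update u a y) = D (p, u))
    {w w' : Fin (d + 1) → ℂ} (h0 : (w 0).re = (w' 0).re) (h1 : ∀ b, b ≠ a → uu w b = uu w' b) :
    D (qq w) = D (qq w') := by
  have h2 : uu w' = Function.update (uu w) a (uu w' a) := by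
    funext b
    by_cases hb : b = a
    · subst hb
      simp
    · rw [Function.update_of_ne hb, h1 b hb]
  unfold qq
  rw [h2, hDu, h0]

/-- The suspension is a move. -/
theorem susp_mov (hΨ : ContDiffOn ℝ ∞ Ψ (Set.univ ×ˢ dsc A))
    (hh : ContDiffOn ℝ ∞ h (Set.univ ×ˢ dsc A)) (hD : ContDiff ℝ ∞ D)
    (hDu : ∀ p u y, D (p, Function.update u a y) = D (p, u))
    (hi : ∀ s, Set.InjOn (fun z => Ψ (s, z)) (dsc A))
    (hs : ∀ s, ∀ z ∈ dsc A, ∀ v w, om1 (fderiv ℝ (fun z => Ψ (s, z)) z v)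
      (fderiv ℝ (fun z => Ψ (s, z)) z w) = om1 v w)
    (hg : ∀ s, ∀ z ∈ dsc A, ∀ v, fderiv ℝ (fun z => h (s, z)) z v =
      om1 (deriv (fun t => Ψ (t, z)) s) (fderiv ℝ (fun z => Ψ (s, z)) z v)) :
    Mov (sV a A) (susp a Ψ h D) where
  isOpen := sV_isOpen a A
  smooth := susp_contDiffOn hΨ hh hD
  sympl := fun w hw v v' => susp_sympl hΨ hh hD (fderiv_dir_zero hD hDu) hs hg hw v v'
  re0 := fun w _ => re_susp_zero w
  fib := by
    intro w hw w' hw' h0 he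
    have h1 : ∀ b, b ≠ a → uu w b = uu w' b := by
      intro b hb
      rw [← uu_susp_ne (a := a) (Ψ := Ψ) (h := h) (D := D) w hb,
        ← uu_susp_ne (a := a) (Ψ := Ψ) (h := h) (D := D) w' hb]
      unfold uu
      rw [he b]
    have h2 := D_congr hDu h0 h1
    have h3 : w a.succ = w' a.succ := by
      have h4 := he a
      rw [susp_self, susp_self, h2] at h4
      exact hi _ hw hw' h4
    have h5 : qq w = qq w' := by
      refine Prod.ext h0 ?_
      funext b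
      by_cases hb : b = a
      · subst hb
        show uu w b = uu w' b
        unfold uu
        rw [h3]
      · exact h1 b hb
    refine ⟨fun b => ?_, ?_⟩
    · by_cases hb : b = a
      · subst hb
        exact h3
      · have h6 := he b
        rw [susp_ne w hb, susp_ne w' hb, h5, h3] at h6
        exact mul_left_cancel₀ (exp_ne_zero _) h6
    · rw [im_susp_zero, im_susp_zero, h5, h3]
      ring

end

end Vale.Agent.P209.H578
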